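import Vale.Agent.P076.H819.Ker
import Vale.Agent.P076.Bdl.All

/-! # P076 / H819 : [ASM-K] kernel bound in the normalisation `evo` -/

open MeasureTheory Complex Set
open scoped FourierTransform ENNReal

namespace Vale.Agent.P076.H819

open Vale.Agent.P076

/-- the same data in the other normalisation -/
noncomputable def cvt (G : E 2 → ℂ) (ξ : F2) : ℂ :=
  (((2 * Real.pi) ^ 2)⁻¹ : ℝ) * G (WithLp.toLp 2 ((2 * Real.pi)⁻¹ • ξ))

theorem evo_eq_Evo (G : E 2 → ℂ) (x : E 2) (t : ℝ) : evo G x t 0 = Evo (cvt G) (fun i => x i) (t / (2 * Real.pi)) := by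
  have hpi : (0 : ℝ) < 2 * Real.pi := by positivity
  set F : F2 → ℂ := fun η => cexp (2 * Real.pi * I * (((∑ i, x i * η i) - t * (∑ i, η i ^ 2) : ℝ) : ℂ)) * G (WithLp.toLp 2 η) with hF
  have e1 : evo G x t 0 = ∫ η : F2, F η := by
    have h := (PiLp.volume_preserving_toLp (Fin 2)).integral_comp (MeasurableEquiv.toLp 2 (Fin 2 → ℝ)).measurableEmbedding
      (fun η : E 2 => cexp (2 * Real.pi * I * ((inner ℝ x η - t * ‖η‖ ^ 2 : ℝ) : ℂ) - ((0 : ℝ) * ‖η‖ ^ 2 : ℝ)) * G η)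
    unfold evo
    rw [← h]
    congr 1; ext η
    have h1 : inner ℝ x (WithLp.toLp 2 η : E 2) = ∑ i, x i * η i := by
      simp [PiLp.inner_apply, mul_comm]
    have h2 : ‖(WithLp.toLp 2 η : E 2)‖ ^ 2 = ∑ i, η i ^ 2 := by
      rw [EuclideanSpace.norm_sq_eq]; simp
    rw [h1, h2, hF]
    simp
  rw [e1]
  have e2 := MeasureTheory.Measure.integral_comp_smul (volume : Measure F2) F ((2 * Real.pi)⁻¹)
  have e3 : Evo (cvt G) (fun i => x i) (t / (2 * Real.pi)) = ∫ ξ : F2, ((((2 * Real.pi) ^ 2)⁻¹ : ℝ) : ℂ) * F ((2 * Real.pi)⁻¹ • ξ) := by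
    unfold Evo cvt
    congr 1; ext ξ
    rw [hF]
    simp only [Pi.smul_apply, smul_eq_mul]
    rw [← mul_assoc, mul_comm (cexp _) ((((2 * Real.pi) ^ 2)⁻¹ : ℝ) : ℂ), mul_assoc]
    congr 3
    simp only [Fin.sum_univ_two]
    push_cast
    have : (Real.pi : ℂ) ≠ 0 := by exact_mod_cast Real.pi_ne_zero
    field_simp
  rw [e3, integral_const_mul, e2]
  have h3 : Module.finrank ℝ F2 = 2 := by simp
  rw [h3, Complex.real_smul, ← mul_assoc, ← Complex.ofReal_mul]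
  have h4 : ((2 * Real.pi) ^ 2)⁻¹ * |(((2 * Real.pi)⁻¹) ^ 2)⁻¹| = 1 := by
    rw [inv_pow, inv_inv, abs_of_pos (by positivity)]
    field_simp
  rw [h4]; simp

theorem cvt_integrable {G : E 2 → ℂ} (hG : Integrable G) : Integrable (cvt G) := by
  unfold cvt
  refine Integrable.const_mul ?_ _
  have h1 : Integrable (fun η : F2 => G (WithLp.toLp 2 η)) :=
    ((PiLp.volume_preserving_toLp (Fin 2)).integrable_comp_emb (MeasurableEquiv.toLp 2 (Fin 2 → ℝ)).measurableEmbedding).2 hG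
  exact h1.comp_smul (by positivity)

/-- the weight, `(1 + |v|/L)^(-M)` -/
noncomputable def wE (M L : ℝ) (v : E 2) : ℝ := (1 + ‖v‖ / L) ^ (-M)

theorem wq_le_wE {M : ℝ} {N : ℕ} (hM : M ≤ N) {L : ℝ} (hL : 0 < L) (v : E 2) : wq N L (fun i => v i) ≤ wE M L v := by
  unfold wq wE
  have h1 : ‖v‖ ≤ |v 0| + |v 1| := by
    rw [EuclideanSpace.norm_eq]
    simp only [Fin.sum_univ_two, Real.norm_eq_abs]
    apply Real.sqrt_le_iff.2
    constructor
    · positivity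
    · nlinarith [mul_nonneg (abs_nonneg (v 0)) (abs_nonneg (v 1))]
  have h0 : (1 : ℝ) ≤ 1 + ‖v‖ / L := by have := norm_nonneg v; have : 0 ≤ ‖v‖ / L := by positivity
                                        linarith
  have h2 : 1 + ‖v‖ / L ≤ 1 + (|v 0| + |v 1|) / L := by gcongr
  rw [← Real.rpow_natCast, ← Real.rpow_neg (by linarith)]
  calc (1 + (|v 0| + |v 1|) / L) ^ (-(N : ℝ)) ≤ (1 + ‖v‖ / L) ^ (-(N : ℝ)) :=
        Real.rpow_le_rpow_of_nonpos (by linarith) h2 (by simp)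
    _ ≤ (1 + ‖v‖ / L) ^ (-M) := Real.rpow_le_rpow_of_exponent_le h0 (by linarith)

/-- **[ASM-K], `lintegral` form**, any two times -/
theorem kernel_evo (M A S : ℝ) (hS : 0 ≤ S) : ∃ C : ℝ, 0 ≤ C ∧ ∀ (L : ℝ) (η0 : E 2) (G : E 2 → ℂ), 0 < L →
    Integrable G → (∀ η, G η ≠ 0 → ∀ i, |η i - η0 i| ≤ A / L) → ∀ (x : E 2) (t t0 : ℝ), |t - t0| ≤ S * L ^ 2 →
      ‖evo G x t 0‖ₑ ^ 2 ≤ ENNReal.ofReal (C * (L ^ 2)⁻¹) *
        ∫⁻ y : E 2, ‖evo G y t0 0‖ₑ ^ 2 * ENNReal.ofReal (wE M L (x - y - (2 * (t - t0)) • η0)) := by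
  have hpi : (0 : ℝ) < 2 * Real.pi := by positivity
  obtain ⟨N, hN⟩ := exists_nat_ge M
  obtain ⟨C, hC, H⟩ := kernel_bound N (2 * Real.pi * A) (S / (2 * Real.pi)) (by positivity)
  refine ⟨C, hC, fun L η0 G hL hG hs x t t0 ht => ?_⟩
  have h1 := H L (fun i => 2 * Real.pi * η0 i) (cvt G) hL (cvt_integrable hG) ?_ (fun i => x i) (t / (2 * Real.pi)) (t0 / (2 * Real.pi)) ?_
  · rw [evo_eq_Evo]
    refine h1.trans ?_
    gcongr
    have h := (PiLp.volume_preserving_toLp (Fin 2)).lintegral_comp_emb (MeasurableEquiv.toLp 2 (Fin 2 → ℝ)).measurableEmbedding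
      (fun y : E 2 => ‖evo G y t0 0‖ₑ ^ 2 * ENNReal.ofReal (wE M L (x - y - (2 * (t - t0)) • η0)))
    rw [← h]
    refine lintegral_mono fun y => ?_
    simp only []
    rw [evo_eq_Evo]
    gcongr
    have h2 := wq_le_wE hN hL (x - WithLp.toLp 2 y - (2 * (t - t0)) • η0)
    refine le_trans (le_of_eq ?_) h2
    congr 1; ext i
    simp only [PiLp.sub_apply, PiLp.smul_apply, smul_eq_mul]
    field_simp
  · intro ξ hξ i
    have h2 : G (WithLp.toLp 2 ((2 * Real.pi)⁻¹ • ξ)) ≠ 0 := fun h => hξ (by unfold cvt; rw [h, mul_zero])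
    have h3 := hs _ h2 i
    simp only [Pi.smul_apply, smul_eq_mul] at h3
    calc |ξ i - 2 * Real.pi * η0 i| = 2 * Real.pi * |(2 * Real.pi)⁻¹ * ξ i - η0 i| := by
          rw [← abs_of_pos hpi, ← abs_mul, abs_of_pos hpi]; congr 1; field_simp
      _ ≤ 2 * Real.pi * (A / L) := by gcongr
      _ = _ := by ring
  · rw [← sub_div, abs_div, abs_of_pos hpi]
    calc _ ≤ S * L ^ 2 / (2 * Real.pi) := by gcongr
      _ = _ := by ring

theorem int_of_bdd {G : E 2 → ℂ} (hm : Measurable G) (hb : ∃ b : ℝ, ∀ η, ‖G η‖ ≤ b) {η0 : E 2} {r : ℝ}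
    (hs : ∀ η, G η ≠ 0 → ∀ i, |η i - η0 i| ≤ r) : Integrable G ∧ MemLp G 2 := by
  obtain ⟨b, hb⟩ := hb
  have h1 : ∀ η, G η ≠ 0 → η ∈ Metric.closedBall η0 (2 * |r|) := by
    intro η h
    rw [Metric.mem_closedBall, dist_eq_norm, EuclideanSpace.norm_eq]
    apply Real.sqrt_le_iff.2
    refine ⟨by positivity, ?_⟩
    simp only [Fin.sum_univ_two, Real.norm_eq_abs, PiLp.sub_apply]
    have h0 := (hs η h 0).trans (le_abs_self r)
    have h1 := (hs η h 1).trans (le_abs_self r)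
    have a0 := abs_nonneg (η 0 - η0 0)
    have a1 := abs_nonneg (η 1 - η0 1)
    nlinarith [mul_nonneg a0 (abs_nonneg r), mul_nonneg a1 (abs_nonneg r)]
  have h2 : G = (Metric.closedBall η0 (2 * |r|)).indicator G := by
    ext η
    by_cases h : G η = 0
    · by_cases h' : η ∈ Metric.closedBall η0 (2 * |r|) <;> simp [h, indicator]
    · rw [indicator_of_mem (h1 η h)]
  have h3 : MemLp G ⊤ := memLp_top_of_bound hm.aestronglyMeasurable b (by filter_upwards with η; exact hb η)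
  have h4 : ∀ p : ℝ≥0∞, MemLp G p := by
    intro p
    rw [h2]
    have hv : volume (Metric.closedBall η0 (2 * |r|)) ≠ ⊤ := measure_closedBall_lt_top.ne
    have : IsFiniteMeasure ((volume : Measure (E 2)).restrict (Metric.closedBall η0 (2 * |r|))) :=
      ⟨by rw [Measure.restrict_apply_univ]; exact measure_closedBall_lt_top⟩
    rw [memLp_indicator_iff_restrict Metric.isClosed_closedBall.measurableSet]
    exact (h3.restrict _).mono_exponent le_top
  exact ⟨memLp_one_iff_integrable.1 (h4 1), h4 2⟩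

theorem fourierInv_eq_evo (G : E 2 → ℂ) (y : E 2) : (𝓕⁻ G : E 2 → ℂ) y = evo G y 0 0 := by
  rw [Real.fourierInv_eq']
  unfold evo
  congr 1; ext η
  rw [smul_eq_mul, real_inner_comm]
  congr 2
  push_cast; ring

/-- **[ASM-K], Bochner form** -/
theorem kernel_asm (M c0 : ℝ) (hM : 0 ≤ M) (hc : 0 ≤ c0) : ∃ C : ℝ, 0 ≤ C ∧ ∀ (L : ℝ) (η0 : E 2) (H : E 2 → ℂ), 0 < L →
    Measurable H → (∃ b : ℝ, ∀ η, ‖H η‖ ≤ b) → (∀ η, H η ≠ 0 → ∀ i, |η i - η0 i| ≤ c0 / L) →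
      ∀ (x : E 2) (t : ℝ), |t| ≤ c0 * L ^ 2 →
        ‖evo H x t 0‖ ^ 2 ≤ C / L ^ 2 *
          ∫ y : E 2, ‖(𝓕⁻ H : E 2 → ℂ) y‖ ^ 2 * (1 + ‖x - y - (2 * t) • η0‖ / L) ^ (-M) := by
  obtain ⟨C, hC, K⟩ := kernel_evo M c0 c0 hc
  refine ⟨C, hC, fun L η0 H hL hm hb hs x t ht => ?_⟩
  obtain ⟨hi, h2⟩ := int_of_bdd hm hb hs
  have k := K L η0 H hL hi hs x t 0 (by simpa using ht)
  have hmem : MemLp (fun y : E 2 => evo H y 0 0) 2 := (Lp.memLp _).ae_eq (evo_zero_ae_eq hi h2)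
  have hsq : Integrable (fun y : E 2 => ‖(𝓕⁻ H : E 2 → ℂ) y‖ ^ 2) := by
    have := hmem.integrable_norm_pow (by norm_num)
    simpa [fourierInv_eq_evo] using this
  have hw1 : ∀ y : E 2, (1 + ‖x - y - (2 * t) • η0‖ / L) ^ (-M) ≤ 1 := fun y =>
    Real.rpow_le_one_of_one_le_of_nonpos (by have : 0 ≤ ‖x - y - (2 * t) • η0‖ / L := by positivity
                                             linarith) (by linarith)
  have hw0 : ∀ y : E 2, 0 ≤ (1 + ‖x - y - (2 * t) • η0‖ / L) ^ (-M) := fun y => by positivity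
  have hint : Integrable (fun y : E 2 => ‖(𝓕⁻ H : E 2 → ℂ) y‖ ^ 2 * (1 + ‖x - y - (2 * t) • η0‖ / L) ^ (-M)) := by
    refine hsq.mono' ?_ ?_
    · refine hsq.aestronglyMeasurable.mul ?_
      refine Measurable.aestronglyMeasurable ?_
      fun_prop
    · filter_upwards with y
      rw [Real.norm_eq_abs, abs_of_nonneg (mul_nonneg (by positivity) (hw0 y))]
      exact mul_le_of_le_one_right (by positivity) (hw1 y)
  have e1 : ∫⁻ y : E 2, ‖evo H y 0 0‖ₑ ^ 2 * ENNReal.ofReal (wE M L (x - y - (2 * (t - 0)) • η0))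
      = ENNReal.ofReal (∫ y : E 2, ‖(𝓕⁻ H : E 2 → ℂ) y‖ ^ 2 * (1 + ‖x - y - (2 * t) • η0‖ / L) ^ (-M)) := by
    rw [ofReal_integral_eq_lintegral_ofReal hint (by filter_upwards with y; exact mul_nonneg (by positivity) (hw0 y))]
    refine lintegral_congr fun y => ?_
    rw [ENNReal.ofReal_mul (by positivity), ENNReal.ofReal_pow (norm_nonneg _), ofReal_norm, fourierInv_eq_evo,
      sub_zero, wE]
  rw [e1, ← ENNReal.ofReal_mul (by positivity), ← ofReal_norm, ← ENNReal.ofReal_pow (norm_nonneg _)] at k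
  have k2 := (ENNReal.ofReal_le_ofReal_iff (mul_nonneg (by positivity) (integral_nonneg fun y =>
    mul_nonneg (by positivity) (hw0 y)))).1 k
  rwa [← div_eq_mul_inv] at k2

end Vale.Agent.P076.H819
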