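import Vale.Agent.P076.X.Defs

/-! # P076 / TS.LOW : column and transversality sums over one point per block (helper819; statements of helper21, #6527) -/

set_option linter.all false

open MeasureTheory Vale.Agent.P076.X

namespace Vale.Agent.P076.H819

lemma summable_base : Summable (fun n : ℤ => (1 + (n:ℝ) ^ 2)⁻¹) := by
  have h1 : Summable (fun n : ℤ => 1 / (n:ℝ) ^ 2) := Real.summable_one_div_int_pow.mpr (by norm_num)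
  have h2 : Summable (fun n : ℤ => if n = 0 then (1:ℝ) else 0) :=
    summable_of_ne_finset_zero (s := {0}) (by
      intro b hb
      have : b ≠ 0 := by simpa using hb
      simp [this])
  refine Summable.of_nonneg_of_le (fun n => by positivity) (fun n => ?_) (h1.add h2)
  by_cases hn : n = 0
  · subst hn; simp
  · have hn' : (0:ℝ) < (n:ℝ) ^ 2 := by
      have : (n:ℝ) ≠ 0 := by exact_mod_cast hn
      positivity
    simp only [hn, if_false, add_zero, one_div]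
    exact inv_anti₀ hn' (by linarith)

/-- constant of `base` -/
noncomputable def cB : ℝ := 3 * ∑' n : ℤ, (1 + (n:ℝ) ^ 2)⁻¹

lemma cB_pos : 0 < cB := by
  unfold cB
  have : (0:ℝ) < ∑' n : ℤ, (1 + (n:ℝ) ^ 2)⁻¹ :=
    summable_base.tsum_pos (fun n => by positivity) 0 (by simp)
  linarith

lemma base {ι : Type*} (s : Finset ι) (φ : ι → ℤ) (hφ : Set.InjOn φ s) (p : ℝ) :
    ∑ i ∈ s, (1 + ((φ i : ℝ) - p) ^ 2)⁻¹ ≤ cB := by
  classical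
  have h1 : ∀ i ∈ s, (1 + ((φ i : ℝ) - p) ^ 2)⁻¹ ≤ 3 * (1 + (((φ i - ⌊p⌋ : ℤ)) : ℝ) ^ 2)⁻¹ := by
    intro i _
    have hf1 := Int.floor_le p
    have hf2 := Int.lt_floor_add_one p
    have e : (((φ i - ⌊p⌋ : ℤ)) : ℝ) = (φ i : ℝ) - (⌊p⌋ : ℝ) := by push_cast; ring
    rw [e]
    have hA : 1 + ((φ i : ℝ) - (⌊p⌋ : ℝ)) ^ 2 ≤ 3 * (1 + ((φ i : ℝ) - p) ^ 2) := by
      nlinarith [sq_nonneg ((φ i : ℝ) - p - (p - ⌊p⌋))]
    have h0 : 0 < 1 + ((φ i : ℝ) - (⌊p⌋ : ℝ)) ^ 2 := by positivity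
    have h00 : 0 < 1 + ((φ i : ℝ) - p) ^ 2 := by positivity
    rw [← div_eq_mul_inv, le_div_iff₀ h0, inv_mul_le_iff₀ h00]
    linarith
  calc ∑ i ∈ s, (1 + ((φ i : ℝ) - p) ^ 2)⁻¹ ≤ ∑ i ∈ s, 3 * (1 + (((φ i - ⌊p⌋ : ℤ)) : ℝ) ^ 2)⁻¹ :=
        Finset.sum_le_sum h1
    _ = 3 * ∑ i ∈ s, (1 + (((φ i - ⌊p⌋ : ℤ)) : ℝ) ^ 2)⁻¹ := by rw [Finset.mul_sum]
    _ = 3 * ∑ n ∈ s.image (fun i => φ i - ⌊p⌋), (1 + ((n : ℤ) : ℝ) ^ 2)⁻¹ := by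
        rw [Finset.sum_image]
        intro i hi j hj hij
        exact hφ hi hj (by simpa using hij)
    _ ≤ 3 * ∑' n : ℤ, (1 + (n:ℝ) ^ 2)⁻¹ := by
        refine mul_le_mul_of_nonneg_left ?_ (by norm_num)
        exact summable_base.sum_le_tsum _ (fun n _ => by positivity)

/-- sum over an arithmetic progression -/
lemma prog (K : Finset ℤ) (q β : ℝ) (hβ : β ≠ 0) :
    ∑ k ∈ K, (1 + (q + β * (k:ℝ)) ^ 2)⁻¹ ≤ (1 + 1 / |β|) * cB := by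
  classical
  have hb : 0 < |β| := abs_pos.mpr hβ
  set N : ℕ := ⌈1 / |β|⌉₊ with hN
  have hN1 : 1 / |β| ≤ (N:ℝ) := Nat.le_ceil _
  have hNpos : 0 < N := by
    have : 0 < 1 / |β| := by positivity
    have : (0:ℝ) < N := lt_of_lt_of_le this hN1
    exact_mod_cast this
  have hN2 : (N:ℝ) ≤ 1 + 1 / |β| := by
    have := (Nat.ceil_lt_add_one (a := 1 / |β|) (by positivity)).le
    linarith
  have hNz : (0:ℤ) < (N:ℤ) := by exact_mod_cast hNpos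
  have hmaps : ∀ k ∈ K, k % (N:ℤ) ∈ Finset.Ico (0:ℤ) N := by
    intro k _
    rw [Finset.mem_Ico]
    exact ⟨Int.emod_nonneg _ (by omega), Int.emod_lt_of_pos _ hNz⟩
  rw [← Finset.sum_fiberwise_of_maps_to hmaps]
  have hfib : ∀ r ∈ Finset.Ico (0:ℤ) N, ∑ k ∈ K with k % (N:ℤ) = r, (1 + (q + β * (k:ℝ)) ^ 2)⁻¹ ≤ cB := by
    intro r _
    set γ : ℝ := β * N with hγ
    have hγ1 : 1 ≤ |γ| := by
      rw [hγ, abs_mul, Nat.abs_cast]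
      have := mul_le_mul_of_nonneg_left hN1 hb.le
      rwa [mul_one_div_cancel hb.ne'] at this
    have hγ0 : γ ≠ 0 := by
      intro h; rw [h, abs_zero] at hγ1; linarith
    refine le_trans (Finset.sum_le_sum ?_) (base (K.filter (fun k => k % (N:ℤ) = r)) (fun k => k / (N:ℤ)) ?_
      (-(q + β * r) / γ))
    · intro k hk
      have hk' : k % (N:ℤ) = r := (Finset.mem_filter.mp hk).2
      have e1 : (k:ℝ) = (N:ℝ) * ((k / (N:ℤ) : ℤ) : ℝ) + (r:ℝ) := by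
        have : (k:ℤ) = (N:ℤ) * (k / (N:ℤ)) + r := by
          have := Int.mul_ediv_add_emod k (N:ℤ)
          omega
        exact_mod_cast this
      have e2 : q + β * (k:ℝ) = γ * (((k / (N:ℤ) : ℤ) : ℝ) - (-(q + β * r) / γ)) := by
        rw [mul_sub, mul_div_cancel₀ _ hγ0, hγ]
        conv_lhs => rw [e1]
        ring
      rw [e2]
      apply inv_anti₀ (by positivity)
      have hg2 : 1 ≤ γ ^ 2 := by
        rw [← sq_abs]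
        nlinarith
      rw [mul_pow]
      nlinarith [sq_nonneg (((k / (N:ℤ) : ℤ) : ℝ) - (-(q + β * r) / γ))]
    · intro k hk l hl hkl
      have hk' : k % (N:ℤ) = r := by simpa using (Finset.mem_filter.mp (Finset.mem_coe.mp hk)).2
      have hl' : l % (N:ℤ) = r := by simpa using (Finset.mem_filter.mp (Finset.mem_coe.mp hl)).2
      have h1 := Int.mul_ediv_add_emod k (N:ℤ)
      have h2 := Int.mul_ediv_add_emod l (N:ℤ)
      simp only at hkl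
      rw [← h1, ← h2, hkl, hk', hl']
  calc ∑ r ∈ Finset.Ico (0:ℤ) N, ∑ k ∈ K with k % (N:ℤ) = r, (1 + (q + β * (k:ℝ)) ^ 2)⁻¹
      ≤ ∑ r ∈ Finset.Ico (0:ℤ) N, cB := Finset.sum_le_sum hfib
    _ = (N:ℝ) * cB := by simp
    _ ≤ (1 + 1 / |β|) * cB := mul_le_mul_of_nonneg_right hN2 cB_pos.le

/-- the position in its block, in units of `T` -/
lemma rel (X t T b c : ℝ) (hT : 0 < T) (hb : |b| ≤ 2) :
    (1 + ((X - c - 2 * b * t) / T) ^ 2)⁻¹ ≤ 51 * (1 + ((⌊X / T⌋ : ℝ) - (c / T + 2 * b * ⌊t / T⌋)) ^ 2)⁻¹ := by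
  have h1 := Int.floor_le (X / T)
  have h2 := Int.lt_floor_add_one (X / T)
  have h3 := Int.floor_le (t / T)
  have h4 := Int.lt_floor_add_one (t / T)
  set j : ℝ := (⌊X / T⌋ : ℝ) with hj
  set k : ℝ := (⌊t / T⌋ : ℝ) with hk
  set φ : ℝ := X / T - j with hφ
  set θ : ℝ := t / T - k with hθ
  have e : (X - c - 2 * b * t) / T = (j - (c / T + 2 * b * k)) + (φ - 2 * b * θ) := by
    rw [hφ, hθ]; field_simp; ring
  rw [e]
  set A := j - (c / T + 2 * b * k)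
  have hd : |φ - 2 * b * θ| ≤ 5 := by
    have hφ1 : |φ| ≤ 1 := by rw [abs_le]; constructor <;> linarith
    have hθ1 : |θ| ≤ 1 := by rw [abs_le]; constructor <;> linarith
    calc |φ - 2 * b * θ| ≤ |φ| + |2 * b * θ| := abs_sub _ _
      _ = |φ| + 2 * |b| * |θ| := by rw [abs_mul, abs_mul, abs_two]
      _ ≤ 1 + 2 * 2 * 1 := by gcongr
      _ = 5 := by norm_num
  have hd2 : (φ - 2 * b * θ) ^ 2 ≤ 25 := by
    rw [← sq_abs]; nlinarith [abs_nonneg (φ - 2 * b * θ)]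
  have h0 : 0 < 1 + A ^ 2 := by positivity
  have h00 : 0 < 1 + (A + (φ - 2 * b * θ)) ^ 2 := by positivity
  rw [← div_eq_mul_inv, le_div_iff₀ h0, inv_mul_le_iff₀ h00]
  nlinarith [sq_nonneg (A + 2 * (φ - 2 * b * θ))]

lemma W_eq (T u : ℝ) (hT : 0 < T) : X.W T u = 2 / (Real.pi * T) * ((1 + (u / T) ^ 2) ^ 2)⁻¹ := by
  unfold X.W; rw [div_pow]

lemma two_pi : 2 / Real.pi ≤ 1 := by
  rw [div_le_one Real.pi_pos]; linarith [Real.pi_gt_three]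

lemma W_le1 (T u : ℝ) (hT : 0 < T) : X.W T u ≤ T⁻¹ * (1 + (u / T) ^ 2)⁻¹ := by
  rw [W_eq T u hT]
  have e : 2 / (Real.pi * T) = 2 / Real.pi * T⁻¹ := by field_simp
  rw [e]
  have h1 : ((1 + (u / T) ^ 2) ^ 2)⁻¹ ≤ (1 + (u / T) ^ 2)⁻¹ := by
    apply inv_anti₀ (by positivity)
    nlinarith [sq_nonneg (u / T), sq_nonneg ((u / T) ^ 2)]
  calc 2 / Real.pi * T⁻¹ * ((1 + (u / T) ^ 2) ^ 2)⁻¹ ≤ 1 * T⁻¹ * (1 + (u / T) ^ 2)⁻¹ := by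
        gcongr; exact two_pi
    _ = _ := by ring

/-- [CO] column weight, one point per block in each time row -/
theorem co : ∃ C : ℝ, 0 < C ∧ ∀ {I : Type} (P : Finset I) (x t : I → ℝ) (T b c : ℝ), 0 < T → |b| ≤ 2 →
    (∀ i ∈ P, ∀ j ∈ P, ⌊x i / T⌋ = ⌊x j / T⌋ → ⌊t i / T⌋ = ⌊t j / T⌋ → i = j) →
    ∀ k : ℤ, ∑ i ∈ P.filter (fun i => ⌊t i / T⌋ = k), X.W T (x i - c - 2 * b * t i) ≤ C / T := by
  classical
  refine ⟨51 * cB, by have := cB_pos; positivity, ?_⟩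
  intro I P x t T b c hT hb hP k
  have h1 : ∀ i ∈ P.filter (fun i => ⌊t i / T⌋ = k), X.W T (x i - c - 2 * b * t i)
      ≤ (51 / T) * (1 + ((⌊x i / T⌋ : ℝ) - (c / T + 2 * b * k)) ^ 2)⁻¹ := by
    intro i hi
    have hk : ⌊t i / T⌋ = k := (Finset.mem_filter.mp hi).2
    have h2 := rel (x i) (t i) T b c hT hb
    rw [hk] at h2
    calc X.W T (x i - c - 2 * b * t i) ≤ T⁻¹ * (1 + ((x i - c - 2 * b * t i) / T) ^ 2)⁻¹ := W_le1 _ _ hT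
      _ ≤ T⁻¹ * (51 * (1 + ((⌊x i / T⌋ : ℝ) - (c / T + 2 * b * k)) ^ 2)⁻¹) := by gcongr
      _ = _ := by ring
  calc ∑ i ∈ P.filter (fun i => ⌊t i / T⌋ = k), X.W T (x i - c - 2 * b * t i)
      ≤ ∑ i ∈ P.filter (fun i => ⌊t i / T⌋ = k), (51 / T) * (1 + ((⌊x i / T⌋ : ℝ) - (c / T + 2 * b * k)) ^ 2)⁻¹ :=
        Finset.sum_le_sum h1
    _ = (51 / T) * ∑ i ∈ P.filter (fun i => ⌊t i / T⌋ = k), (1 + ((⌊x i / T⌋ : ℝ) - (c / T + 2 * b * k)) ^ 2)⁻¹ := by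
        rw [Finset.mul_sum]
    _ ≤ (51 / T) * cB := by
        refine mul_le_mul_of_nonneg_left ?_ (by positivity)
        refine base (P.filter (fun i => ⌊t i / T⌋ = k)) (fun i => ⌊x i / T⌋) ?_ (c / T + 2 * b * k)
        intro i hi j hj hij
        have hi' := Finset.mem_filter.mp (Finset.mem_coe.mp hi)
        have hj' := Finset.mem_filter.mp (Finset.mem_coe.mp hj)
        exact hP i hi'.1 j hj'.1 hij (hi'.2.trans hj'.2.symm)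
    _ = 51 * cB / T := by ring

lemma mulAB (A B : ℝ) :
    ((1 + A ^ 2) ^ 2)⁻¹ * ((1 + B ^ 2) ^ 2)⁻¹ ≤ 2 * ((1 + (A - B) ^ 2)⁻¹ * (1 + A ^ 2)⁻¹) := by
  have u1 : 1 + (A - B) ^ 2 ≤ 2 * ((1 + A ^ 2) * (1 + B ^ 2)) := by
    have := sq_nonneg (A + B)
    have h := mul_nonneg (sq_nonneg A) (sq_nonneg B)
    nlinarith
  have u2 : 0 < 1 + A ^ 2 := by positivity
  have u3 : 0 < 1 + B ^ 2 := by positivity
  have u4 : 0 < 1 + (A - B) ^ 2 := by positivity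
  have u5 : (1 + B ^ 2)⁻¹ ≤ 1 := inv_le_one_of_one_le₀ (by nlinarith [sq_nonneg B])
  have u6 : (1 + A ^ 2)⁻¹ * (1 + B ^ 2)⁻¹ ≤ 2 * (1 + (A - B) ^ 2)⁻¹ := by
    rw [← mul_inv, ← div_eq_mul_inv, le_div_iff₀ u4, inv_mul_le_iff₀ (by positivity)]
    linarith
  calc ((1 + A ^ 2) ^ 2)⁻¹ * ((1 + B ^ 2) ^ 2)⁻¹
      = ((1 + A ^ 2)⁻¹ * (1 + B ^ 2)⁻¹) * ((1 + A ^ 2)⁻¹ * (1 + B ^ 2)⁻¹) := by
        rw [← inv_pow, ← inv_pow]; ring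
    _ ≤ (2 * (1 + (A - B) ^ 2)⁻¹) * ((1 + A ^ 2)⁻¹ * 1) := by gcongr
    _ = _ := by ring

lemma prodW (T u v : ℝ) (hT : 0 < T) : X.W T u * X.W T v
    ≤ T⁻¹ ^ 2 * (2 * ((1 + (u / T - v / T) ^ 2)⁻¹ * (1 + (u / T) ^ 2)⁻¹)) := by
  rw [W_eq _ _ hT, W_eq _ _ hT]
  have e : 2 / (Real.pi * T) = 2 / Real.pi * T⁻¹ := by field_simp
  rw [e]
  have hp : 0 ≤ 2 / Real.pi := by positivity
  have hs : (2 / Real.pi) * (2 / Real.pi) ≤ 1 := by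
    have := two_pi
    exact mul_le_one₀ this hp this
  have hnn : 0 ≤ T⁻¹ ^ 2 * (((1 + (u / T) ^ 2) ^ 2)⁻¹ * ((1 + (v / T) ^ 2) ^ 2)⁻¹) := by positivity
  calc 2 / Real.pi * T⁻¹ * ((1 + (u / T) ^ 2) ^ 2)⁻¹ * (2 / Real.pi * T⁻¹ * ((1 + (v / T) ^ 2) ^ 2)⁻¹)
      = ((2 / Real.pi) * (2 / Real.pi)) * (T⁻¹ ^ 2 * (((1 + (u / T) ^ 2) ^ 2)⁻¹ * ((1 + (v / T) ^ 2) ^ 2)⁻¹)) := by ring
    _ ≤ 1 * (T⁻¹ ^ 2 * (((1 + (u / T) ^ 2) ^ 2)⁻¹ * ((1 + (v / T) ^ 2) ^ 2)⁻¹)) :=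
        mul_le_mul_of_nonneg_right hs hnn
    _ ≤ _ := by
        rw [one_mul]
        exact mul_le_mul_of_nonneg_left (mulAB _ _) (by positivity)

lemma shift_le (q β k s D : ℝ) (hβ8 : |β| ≤ 8) (h0 : 0 ≤ s) (h1 : s ≤ 1) (hD : D = (q + β * k) + β * s) :
    (1 + D ^ 2)⁻¹ ≤ 129 * (1 + (q + β * k) ^ 2)⁻¹ := by
  have hdd : (β * s) ^ 2 ≤ 64 := by
    rw [mul_pow, ← sq_abs β]
    have e1 : |β| ^ 2 ≤ 64 := by nlinarith [abs_nonneg β]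
    have e2 : s ^ 2 ≤ 1 := by nlinarith
    calc |β| ^ 2 * s ^ 2 ≤ 64 * 1 := by gcongr
      _ = 64 := by norm_num
  have hqk : 1 + (q + β * k) ^ 2 ≤ 129 * (1 + D ^ 2) := by
    rw [hD]
    nlinarith [sq_nonneg (q + β * k + 2 * (β * s))]
  have p1 : 0 < 1 + (q + β * k) ^ 2 := by positivity
  have p2 : 0 < 1 + D ^ 2 := by positivity
  rw [← div_eq_mul_inv, le_div_iff₀ p1, inv_mul_le_iff₀ p2]
  linarith

/-- pointwise bound in a block -/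
lemma ptw (u t T b c b' c' : ℝ) (hT : 0 < T) (hb : |b| ≤ 2) (hb' : |b'| ≤ 2) :
    X.W T (u - c - 2 * b * t) * X.W T (u - c' - 2 * b' * t)
      ≤ (2 * 51 * 129 / T ^ 2) * ((1 + ((c' - c) / T + 2 * (b' - b) * (⌊t / T⌋ : ℝ)) ^ 2)⁻¹ *
        (1 + ((⌊u / T⌋ : ℝ) - (c / T + 2 * b * ⌊t / T⌋)) ^ 2)⁻¹) := by
  have hβ8 : |2 * (b' - b)| ≤ 8 := by
    rw [abs_mul, abs_two]
    have : |b' - b| ≤ |b'| + |b| := abs_sub _ _
    linarith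
  have hrel := rel u t T b c hT hb
  have h3 := Int.floor_le (t / T)
  have h4 := Int.lt_floor_add_one (t / T)
  have hsh := shift_le ((c' - c) / T) (2 * (b' - b)) (⌊t / T⌋ : ℝ) (t / T - ⌊t / T⌋)
    ((u - c - 2 * b * t) / T - (u - c' - 2 * b' * t) / T) hβ8 (by linarith) (by linarith)
    (by field_simp; ring)
  calc X.W T (u - c - 2 * b * t) * X.W T (u - c' - 2 * b' * t)
      ≤ T⁻¹ ^ 2 * (2 * ((1 + ((u - c - 2 * b * t) / T - (u - c' - 2 * b' * t) / T) ^ 2)⁻¹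
          * (1 + ((u - c - 2 * b * t) / T) ^ 2)⁻¹)) := prodW _ _ _ hT
    _ ≤ T⁻¹ ^ 2 * (2 * ((129 * (1 + ((c' - c) / T + 2 * (b' - b) * (⌊t / T⌋ : ℝ)) ^ 2)⁻¹) *
        (51 * (1 + ((⌊u / T⌋ : ℝ) - (c / T + 2 * b * ⌊t / T⌋)) ^ 2)⁻¹))) := by
        gcongr
    _ = _ := by field_simp

/-- row by row summation -/
lemma rows {I : Type} (P : Finset I) (x t : I → ℝ) (T b c q β : ℝ) (hβ0 : β ≠ 0)
    (hP : ∀ i ∈ P, ∀ j ∈ P, ⌊x i / T⌋ = ⌊x j / T⌋ → ⌊t i / T⌋ = ⌊t j / T⌋ → i = j) :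
    ∑ i ∈ P, ((1 + (q + β * (⌊t i / T⌋ : ℝ)) ^ 2)⁻¹ *
        (1 + ((⌊x i / T⌋ : ℝ) - (c / T + 2 * b * ⌊t i / T⌋)) ^ 2)⁻¹) ≤ ((1 + 1 / |β|) * cB) * cB := by
  classical
  have hcB := cB_pos
  have hmaps : ∀ i ∈ P, ⌊t i / T⌋ ∈ P.image (fun i => ⌊t i / T⌋) := fun i hi =>
    Finset.mem_image_of_mem _ hi
  rw [← Finset.sum_fiberwise_of_maps_to hmaps]
  calc ∑ k ∈ P.image (fun i => ⌊t i / T⌋), ∑ i ∈ P with ⌊t i / T⌋ = k, ((1 + (q + β * (⌊t i / T⌋ : ℝ)) ^ 2)⁻¹ *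
      (1 + ((⌊x i / T⌋ : ℝ) - (c / T + 2 * b * ⌊t i / T⌋)) ^ 2)⁻¹)
      ≤ ∑ k ∈ P.image (fun i => ⌊t i / T⌋), (1 + (q + β * (k : ℝ)) ^ 2)⁻¹ * cB := by
        refine Finset.sum_le_sum fun k _ => ?_
        have e : ∑ i ∈ P with ⌊t i / T⌋ = k, ((1 + (q + β * (⌊t i / T⌋ : ℝ)) ^ 2)⁻¹ *
            (1 + ((⌊x i / T⌋ : ℝ) - (c / T + 2 * b * ⌊t i / T⌋)) ^ 2)⁻¹)
            = (1 + (q + β * (k : ℝ)) ^ 2)⁻¹ * ∑ i ∈ P with ⌊t i / T⌋ = k,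
            (1 + ((⌊x i / T⌋ : ℝ) - (c / T + 2 * b * k)) ^ 2)⁻¹ := by
          rw [Finset.mul_sum]
          refine Finset.sum_congr rfl fun i hi => ?_
          rw [(Finset.mem_filter.mp hi).2]
        rw [e]
        refine mul_le_mul_of_nonneg_left ?_ (by positivity)
        refine base (P.filter (fun i => ⌊t i / T⌋ = k)) (fun i => ⌊x i / T⌋) ?_ (c / T + 2 * b * k)
        intro i hi j hj hij
        have hi' := Finset.mem_filter.mp (Finset.mem_coe.mp hi)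
        have hj' := Finset.mem_filter.mp (Finset.mem_coe.mp hj)
        exact hP i hi'.1 j hj'.1 hij (hi'.2.trans hj'.2.symm)
    _ = (∑ k ∈ P.image (fun i => ⌊t i / T⌋), (1 + (q + β * (k : ℝ)) ^ 2)⁻¹) * cB := by
        rw [Finset.sum_mul]
    _ ≤ ((1 + 1 / |β|) * cB) * cB :=
        mul_le_mul_of_nonneg_right (prog _ q β hβ0) hcB.le

/-- [TR] transversality sum -/
theorem tr : ∃ C : ℝ, 0 < C ∧ ∀ {I : Type} (P : Finset I) (x t : I → ℝ) (T b c b' c' : ℝ), 0 < T →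
    |b| ≤ 2 → |b'| ≤ 2 → b ≠ b' →
    (∀ i ∈ P, ∀ j ∈ P, ⌊x i / T⌋ = ⌊x j / T⌋ → ⌊t i / T⌋ = ⌊t j / T⌋ → i = j) →
    ∑ i ∈ P, X.W T (x i - c - 2 * b * t i) * X.W T (x i - c' - 2 * b' * t i) ≤ C / (T ^ 2 * |b - b'|) := by
  classical
  refine ⟨2 * 51 * 129 * cB * (9 * cB), by have := cB_pos; positivity, ?_⟩
  intro I P x t T b c b' c' hT hb hb' hbb hP
  have hcB := cB_pos
  have hβ0 : 2 * (b' - b) ≠ 0 := by
    intro h; apply hbb; linarith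
  have hβ8 : |2 * (b' - b)| ≤ 8 := by
    rw [abs_mul, abs_two]
    have : |b' - b| ≤ |b'| + |b| := abs_sub _ _
    linarith
  have h2 := rows P x t T b c ((c' - c) / T) (2 * (b' - b)) hβ0 hP
  have hb0 : 0 < |2 * (b' - b)| := abs_pos.mpr hβ0
  have h3 : 1 + 1 / |2 * (b' - b)| ≤ 9 / |2 * (b' - b)| := by
    rw [le_div_iff₀ hb0, add_mul, one_div, inv_mul_cancel₀ hb0.ne']
    linarith
  have h4 : |b - b'| ≤ |2 * (b' - b)| := by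
    rw [abs_mul, abs_two, abs_sub_comm b b']
    linarith [abs_nonneg (b' - b)]
  have hbb0 : 0 < |b - b'| := abs_pos.mpr (sub_ne_zero.mpr hbb)
  have h5 : 9 / |2 * (b' - b)| ≤ 9 / |b - b'| := by gcongr
  calc ∑ i ∈ P, X.W T (x i - c - 2 * b * t i) * X.W T (x i - c' - 2 * b' * t i)
      ≤ ∑ i ∈ P, (2 * 51 * 129 / T ^ 2) * ((1 + ((c' - c) / T + 2 * (b' - b) * (⌊t i / T⌋ : ℝ)) ^ 2)⁻¹ *
        (1 + ((⌊x i / T⌋ : ℝ) - (c / T + 2 * b * ⌊t i / T⌋)) ^ 2)⁻¹) :=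
        Finset.sum_le_sum fun i _ => ptw (x i) (t i) T b c b' c' hT hb hb'
    _ = (2 * 51 * 129 / T ^ 2) * ∑ i ∈ P, ((1 + ((c' - c) / T + 2 * (b' - b) * (⌊t i / T⌋ : ℝ)) ^ 2)⁻¹ *
        (1 + ((⌊x i / T⌋ : ℝ) - (c / T + 2 * b * ⌊t i / T⌋)) ^ 2)⁻¹) := by rw [Finset.mul_sum]
    _ ≤ (2 * 51 * 129 / T ^ 2) * ((9 / |b - b'| * cB) * cB) := by
        refine mul_le_mul_of_nonneg_left (h2.trans ?_) (by positivity)
        have h6 := h3.trans h5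
        exact mul_le_mul_of_nonneg_right (mul_le_mul_of_nonneg_right h6 hcB.le) hcB.le
    _ = 2 * 51 * 129 * cB * (9 * cB) / (T ^ 2 * |b - b'|) := by
        field_simp

end Vale.Agent.P076.H819
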