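import Vale.Agent.P076.H819.KerE

/-! # P076 / H819 : the kernel bound for all times -/

open MeasureTheory Complex Set
open scoped FourierTransform ENNReal

namespace Vale.Agent.P076.H819

open Vale.Agent.P076

/-- decay of `Osc`, polynomial in `s` -/
theorem osc_poly (N : ℕ) : ∀ (a : ℝ → ℂ), ContDiff ℝ (⊤ : ℕ∞) a → HasCompactSupport a →
    ∃ C : ℝ, 0 ≤ C ∧ ∀ w s : ℝ, |w| ^ N * ‖Osc a w s‖ ≤ C * (1 + |s|) ^ N := by
  induction N with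
  | zero =>
    intro a _ _
    refine ⟨∫ ζ : ℝ, ‖a ζ‖, integral_nonneg fun _ => norm_nonneg _, fun w s => ?_⟩
    rw [pow_zero, one_mul, pow_zero, mul_one]; exact osc_norm_le a w s
  | succ N ih =>
    intro a ha hc
    have h1 : ContDiff ℝ (⊤ : ℕ∞) (fun ζ : ℝ => (ζ : ℂ) * a ζ) := (Complex.ofRealCLM.contDiff).mul ha
    have h2 : ContDiff ℝ (⊤ : ℕ∞) (deriv a) := by
      have := (contDiff_infty_iff_deriv.1 (by exact_mod_cast ha)).2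
      exact_mod_cast this
    obtain ⟨C1, hC1, k1⟩ := ih _ h1 (HasCompactSupport.mul_left hc)
    obtain ⟨C2, hC2, k2⟩ := ih _ h2 hc.deriv
    refine ⟨2 * C1 + C2, by positivity, fun w s => ?_⟩
    have e := osc_step ha hc w s
    have e2 : |w| * ‖Osc a w s‖ ≤ 2 * |s| * ‖Osc (fun ζ => (ζ : ℂ) * a ζ) w s‖ + ‖Osc (deriv a) w s‖ := by
      have := congrArg norm e
      rw [norm_mul, Complex.norm_real, Real.norm_eq_abs] at this
      rw [this]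
      refine (norm_add_le _ _).trans (le_of_eq ?_)
      rw [norm_mul, norm_mul, norm_mul, Complex.norm_I, one_mul, Complex.norm_real, Real.norm_eq_abs]
      simp
    have a1 := k1 w s
    have a2 := k2 w s
    have hs := abs_nonneg s
    calc |w| ^ (N + 1) * ‖Osc a w s‖ = |w| ^ N * (|w| * ‖Osc a w s‖) := by ring
      _ ≤ |w| ^ N * (2 * |s| * ‖Osc (fun ζ => (ζ : ℂ) * a ζ) w s‖ + ‖Osc (deriv a) w s‖) := by gcongr
      _ = 2 * |s| * (|w| ^ N * ‖Osc (fun ζ => (ζ : ℂ) * a ζ) w s‖) + |w| ^ N * ‖Osc (deriv a) w s‖ := by ring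
      _ ≤ 2 * |s| * (C1 * (1 + |s|) ^ N) + C2 * (1 + |s|) ^ N := by gcongr
      _ ≤ 2 * (1 + |s|) * (C1 * (1 + |s|) ^ N) + C2 * (1 + |s|) ^ N * (1 + |s|) := by
        have h3 : 0 ≤ C2 * (1 + |s|) ^ N := by positivity
        have h4 : 0 ≤ C1 * (1 + |s|) ^ N := by positivity
        nlinarith
      _ = _ := by ring

theorem osc_poly' (N : ℕ) {a : ℝ → ℂ} (ha : ContDiff ℝ (⊤ : ℕ∞) a) (hc : HasCompactSupport a) :
    ∃ C : ℝ, 0 ≤ C ∧ ∀ w s : ℝ, ‖Osc a w s‖ ≤ C * ((1 + |w| / (1 + |s|)) ^ N)⁻¹ := by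
  obtain ⟨C0, hC0, k0⟩ := osc_poly 0 a ha hc
  obtain ⟨C1, hC1, k1⟩ := osc_poly N a ha hc
  refine ⟨2 ^ N * (C0 + C1), by positivity, fun w s => ?_⟩
  have b0 := k0 w s
  have b1 := k1 w s
  have hs := abs_nonneg s
  rw [pow_zero, one_mul, pow_zero, mul_one] at b0
  rw [← div_eq_mul_inv, le_div_iff₀ (by positivity)]
  rcases le_total (|w| / (1 + |s|)) 1 with h | h
  · calc ‖Osc a w s‖ * (1 + |w| / (1 + |s|)) ^ N ≤ C0 * (1 + 1) ^ N := by gcongr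
      _ ≤ _ := by
        have : (1 + 1 : ℝ) ^ N = 2 ^ N := by norm_num
        rw [this]
        have : (0:ℝ) ≤ 2 ^ N * C1 := by positivity
        linarith [mul_comm C0 ((2:ℝ) ^ N), mul_add ((2:ℝ)^N) C0 C1]
  · calc ‖Osc a w s‖ * (1 + |w| / (1 + |s|)) ^ N ≤ ‖Osc a w s‖ * (|w| / (1 + |s|) + |w| / (1 + |s|)) ^ N := by gcongr
      _ = 2 ^ N * (|w| ^ N * ‖Osc a w s‖) / (1 + |s|) ^ N := by rw [← two_mul, mul_pow, div_pow]; ring
      _ ≤ 2 ^ N * (C1 * (1 + |s|) ^ N) / (1 + |s|) ^ N := by gcongr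
      _ = 2 ^ N * C1 := by field_simp
      _ ≤ _ := by
        have : (0:ℝ) ≤ 2 ^ N * C0 := by positivity
        linarith [mul_add ((2:ℝ)^N) C0 C1]

/-- the spread of the kernel at time `τ` -/
noncomputable def Lam (L τ : ℝ) : ℝ := L * (1 + |τ| / L ^ 2)

theorem Lam_pos {L : ℝ} (hL : 0 < L) (τ : ℝ) : 0 < Lam L τ := by unfold Lam; positivity

theorem kr_all (M : ℕ) (A : ℝ) : ∃ C : ℝ, 0 ≤ C ∧ ∀ (L : ℝ) (η : F2) (τ : ℝ) (z : F2), 0 < L →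
    ‖Kr (bmp A) L η τ z‖ ≤ C * (1 + |τ| / L ^ 2) ^ 2 * ∏ i, ((Lam L τ)⁻¹ * ((1 + |z i - 2 * τ * η i| / Lam L τ) ^ M)⁻¹) := by
  obtain ⟨C, hC, h⟩ := osc_poly' M (bmp_contDiff A) (bmp_cs A)
  refine ⟨((2 * Real.pi)⁻¹ * C) ^ 2, by positivity, fun L η τ z hL => ?_⟩
  have hΛ := Lam_pos hL τ
  have h1 : ∀ i : Fin 2, ‖((((2 * Real.pi)⁻¹ : ℝ) : ℂ) * Osc (fun ξ => bmp A (L * (ξ - η i))) (z i) τ)‖ ≤
      ((2 * Real.pi)⁻¹ * C * (1 + |τ| / L ^ 2)) * ((Lam L τ)⁻¹ * ((1 + |z i - 2 * τ * η i| / Lam L τ) ^ M)⁻¹) := by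
    intro i
    rw [norm_mul, osc_scale _ hL, Complex.norm_real, Real.norm_eq_abs, abs_of_pos (by positivity)]
    have := h ((z i - 2 * τ * η i) / L) (τ / L ^ 2)
    have e1 : |(z i - 2 * τ * η i) / L| / (1 + |τ / L ^ 2|) = |z i - 2 * τ * η i| / Lam L τ := by
      rw [abs_div, abs_of_pos hL, abs_div, abs_of_pos (by positivity : (0:ℝ) < L ^ 2), Lam, div_div]
    rw [e1] at this
    have e2 : L⁻¹ = (1 + |τ| / L ^ 2) * (Lam L τ)⁻¹ := by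
      unfold Lam; field_simp
    calc (2 * Real.pi)⁻¹ * (L⁻¹ * ‖Osc (bmp A) ((z i - 2 * τ * η i) / L) (τ / L ^ 2)‖)
        ≤ (2 * Real.pi)⁻¹ * (L⁻¹ * (C * ((1 + |z i - 2 * τ * η i| / Lam L τ) ^ M)⁻¹)) := by gcongr
      _ = _ := by rw [e2]; ring
  unfold Kr
  rw [norm_prod]
  calc ∏ i, ‖((((2 * Real.pi)⁻¹ : ℝ) : ℂ) * Osc (fun ξ => bmp A (L * (ξ - η i))) (z i) τ)‖
      ≤ ∏ i, (((2 * Real.pi)⁻¹ * C * (1 + |τ| / L ^ 2)) * ((Lam L τ)⁻¹ * ((1 + |z i - 2 * τ * η i| / Lam L τ) ^ M)⁻¹)) :=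
        Finset.prod_le_prod (fun _ _ => norm_nonneg _) fun i _ => h1 i
    _ = _ := by rw [Finset.prod_mul_distrib, Finset.prod_const, Finset.card_univ, Fintype.card_fin, mul_pow]

/-- all-times kernel bound, `Evo` normalisation -/
theorem kernel_bound_all (M : ℕ) (A : ℝ) : ∃ C : ℝ, 0 ≤ C ∧ ∀ (L : ℝ) (η : F2) (g : F2 → ℂ), 0 < L →
    Integrable g → (∀ ξ, g ξ ≠ 0 → ∀ i, |ξ i - η i| ≤ A / L) → ∀ (x : F2) (t t0 : ℝ),
      ‖Evo g x t‖ₑ ^ 2 ≤ ENNReal.ofReal (C * ((1 + |t - t0| / L ^ 2) ^ 2 / L ^ 2)) *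
        ∫⁻ y, ‖Evo g y t0‖ₑ ^ 2 * ENNReal.ofReal (wq M (Lam L (t - t0)) (fun i => x i - y i - 2 * (t - t0) * η i)) := by
  obtain ⟨C1, hC1, h1⟩ := kr_all (M + 2) A
  refine ⟨C1 ^ 2 * (∫ w : ℝ, ((1 + |w|) ^ 2)⁻¹) ^ 2, by positivity, fun L η g hL hg hs x t t0 => ?_⟩
  have hrep := evo_rep (bmp_contDiff A) (bmp_cs A) hL (fun ζ h => bmp_one h) hg hs x t t0
  set Λ : ℝ := Lam L (t - t0) with hΛ
  have hΛ0 : 0 < Λ := Lam_pos hL _
  set P : ℝ := (1 + |t - t0| / L ^ 2) with hP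
  have hP0 : 0 < P := by positivity
  have hPL : Λ = L * P := rfl
  set k : F2 → ℝ≥0∞ := fun y => ENNReal.ofReal (km M Λ (fun i => x i - y i - 2 * (t - t0) * η i)) with hk
  have hkm : Measurable k := (meas_km_shift M Λ x fun i => 2 * (t - t0) * η i).ennreal_ofReal
  have hum : Measurable (fun y => ‖Evo g y t0‖ₑ) := (evo_continuous hg t0).enorm.measurable
  have hA : ‖Evo g x t‖ₑ ≤ ENNReal.ofReal (C1 * P ^ 2) * ∫⁻ y, ‖Evo g y t0‖ₑ * k y := by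
    rw [hrep, ← lintegral_const_mul' _ _ ENNReal.ofReal_ne_top]
    refine (enorm_integral_le_lintegral_enorm _).trans (lintegral_mono fun y => ?_)
    rw [enorm_mul, mul_comm (ENNReal.ofReal (C1 * P ^ 2)), mul_assoc]
    refine mul_le_mul_right ?_ _
    rw [hk, ← ofReal_norm, mul_comm, ← ENNReal.ofReal_mul (by positivity)]
    exact ENNReal.ofReal_le_ofReal (h1 L η (t - t0) (x - y) hL)
  have hk3 : ∫⁻ y, k y ≤ ENNReal.ofReal ((∫ w : ℝ, ((1 + |w|) ^ 2)⁻¹) ^ 2) := lint_km M hΛ0 x _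
  have hk2 : ∫⁻ y, ‖Evo g y t0‖ₑ ^ 2 * k y ≤ ENNReal.ofReal ((Λ ^ 2)⁻¹) *
      ∫⁻ y, ‖Evo g y t0‖ₑ ^ 2 * ENNReal.ofReal (wq M Λ (fun i => x i - y i - 2 * (t - t0) * η i)) := by
    rw [← lintegral_const_mul' _ _ ENNReal.ofReal_ne_top]
    refine lintegral_mono fun y => ?_
    rw [mul_left_comm, ← ENNReal.ofReal_mul (by positivity)]
    exact mul_le_mul_right (ENNReal.ofReal_le_ofReal (km_le_wq M hΛ0 _)) _
  calc ‖Evo g x t‖ₑ ^ 2 ≤ (ENNReal.ofReal (C1 * P ^ 2) * ∫⁻ y, ‖Evo g y t0‖ₑ * k y) ^ 2 := pow_le_pow_left' hA 2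
    _ = ENNReal.ofReal (C1 * P ^ 2) ^ 2 * (∫⁻ y, ‖Evo g y t0‖ₑ * k y) ^ 2 := mul_pow _ _ _
    _ ≤ ENNReal.ofReal (C1 * P ^ 2) ^ 2 * ((∫⁻ y, ‖Evo g y t0‖ₑ ^ 2 * k y) * ∫⁻ y, k y) := mul_le_mul_right (cs_kernel hum hkm) _
    _ ≤ ENNReal.ofReal (C1 * P ^ 2) ^ 2 * ((ENNReal.ofReal ((Λ ^ 2)⁻¹) *
      ∫⁻ y, ‖Evo g y t0‖ₑ ^ 2 * ENNReal.ofReal (wq M Λ (fun i => x i - y i - 2 * (t - t0) * η i))) *
        ENNReal.ofReal ((∫ w : ℝ, ((1 + |w|) ^ 2)⁻¹) ^ 2)) := mul_le_mul_right (mul_le_mul' hk2 hk3) _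
    _ = (ENNReal.ofReal (C1 * P ^ 2) ^ 2 * ENNReal.ofReal ((∫ w : ℝ, ((1 + |w|) ^ 2)⁻¹) ^ 2) * ENNReal.ofReal ((Λ ^ 2)⁻¹)) *
      ∫⁻ y, ‖Evo g y t0‖ₑ ^ 2 * ENNReal.ofReal (wq M Λ (fun i => x i - y i - 2 * (t - t0) * η i)) := by ring
    _ = _ := by
      rw [← ENNReal.ofReal_pow (by positivity), ← ENNReal.ofReal_mul (by positivity), ← ENNReal.ofReal_mul (by positivity)]
      congr 2
      rw [hPL]
      field_simp

theorem kernel_evo_all (M A : ℝ) : ∃ C : ℝ, 0 ≤ C ∧ ∀ (L : ℝ) (η0 : E 2) (G : E 2 → ℂ), 0 < L →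
    Integrable G → (∀ η, G η ≠ 0 → ∀ i, |η i - η0 i| ≤ A / L) → ∀ (x : E 2) (t t0 : ℝ),
      ‖evo G x t 0‖ₑ ^ 2 ≤ ENNReal.ofReal (C * ((1 + |t - t0| / L ^ 2) ^ 2 / L ^ 2)) *
        ∫⁻ y : E 2, ‖evo G y t0 0‖ₑ ^ 2 * ENNReal.ofReal (wE M (Lam L (t - t0)) (x - y - (2 * (t - t0)) • η0)) := by
  have hpi : (0 : ℝ) < 2 * Real.pi := by positivity
  have hpi1 : (1 : ℝ) ≤ 2 * Real.pi := by linarith [Real.pi_gt_three]
  obtain ⟨N0, hN0⟩ := exists_nat_ge M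
  obtain ⟨C, hC, H⟩ := kernel_bound_all N0 (2 * Real.pi * A)
  refine ⟨C, hC, fun L η0 G hL hG hs x t t0 => ?_⟩
  have h1 := H L (fun i => 2 * Real.pi * η0 i) (cvt G) hL (cvt_integrable hG) ?_ (fun i => x i) (t / (2 * Real.pi)) (t0 / (2 * Real.pi))
  · rw [evo_eq_Evo]
    have h5 : |t / (2 * Real.pi) - t0 / (2 * Real.pi)| ≤ |t - t0| := by
      rw [← sub_div, abs_div, abs_of_pos hpi]
      exact div_le_self (abs_nonneg _) hpi1
    have h6 : Lam L (t / (2 * Real.pi) - t0 / (2 * Real.pi)) ≤ Lam L (t - t0) := by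
      unfold Lam; gcongr
    have h7 := Lam_pos hL (t / (2 * Real.pi) - t0 / (2 * Real.pi))
    refine h1.trans ?_
    gcongr
    have h := (PiLp.volume_preserving_toLp (Fin 2)).lintegral_comp_emb (MeasurableEquiv.toLp 2 (Fin 2 → ℝ)).measurableEmbedding
      (fun y : E 2 => ‖evo G y t0 0‖ₑ ^ 2 * ENNReal.ofReal (wE M (Lam L (t - t0)) (x - y - (2 * (t - t0)) • η0)))
    rw [← h]
    refine lintegral_mono fun y => ?_
    simp only []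
    rw [evo_eq_Evo]
    gcongr
    have h2 := wq_le_wE hN0 (Lam_pos hL (t - t0)) (x - WithLp.toLp 2 y - (2 * (t - t0)) • η0)
    refine le_trans ?_ h2
    have h8 : ∀ v : F2, wq N0 (Lam L (t / (2 * Real.pi) - t0 / (2 * Real.pi))) v ≤ wq N0 (Lam L (t - t0)) v := by
      intro v
      unfold wq
      apply inv_anti₀ (by have := Lam_pos hL (t - t0); positivity)
      have := Lam_pos hL (t - t0)
      gcongr
    refine (h8 _).trans (le_of_eq ?_)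
    congr 1; ext i
    simp only [PiLp.sub_apply, PiLp.smul_apply, smul_eq_mul]
    field_simp
  · intro ξ hξ i
    have h2 : G (WithLp.toLp 2 ((2 * Real.pi)⁻¹ • ξ)) ≠ 0 := fun h => hξ (by unfold cvt; rw [h, mul_zero])
    have h3 := hs _ h2 i
    simp only [Pi.smul_apply, smul_eq_mul] at h3
    calc |ξ i - 2 * Real.pi * η0 i| = 2 * Real.pi * |(2 * Real.pi)⁻¹ * ξ i - η0 i| := by
          rw [← abs_of_pos hpi, ← abs_mul, abs_of_pos hpi]; congr 1; field_simp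
      _ ≤ 2 * Real.pi * (A / L) := by gcongr
      _ = _ := by ring

/-- **[ASM-K], Bochner form, all times** -/
theorem kernel_asm_all (M c0 : ℝ) (hM : 0 ≤ M) : ∃ C : ℝ, 0 ≤ C ∧ ∀ (L : ℝ) (η0 : E 2) (H : E 2 → ℂ), 0 < L →
    Measurable H → (∃ b : ℝ, ∀ η, ‖H η‖ ≤ b) → (∀ η, H η ≠ 0 → ∀ i, |η i - η0 i| ≤ c0 / L) → ∀ (x : E 2) (t : ℝ),
        ‖evo H x t 0‖ ^ 2 ≤ C * ((1 + |t| / L ^ 2) ^ 2 / L ^ 2) *
          ∫ y : E 2, ‖(𝓕⁻ H : E 2 → ℂ) y‖ ^ 2 * (1 + ‖x - y - (2 * t) • η0‖ / (L * (1 + |t| / L ^ 2))) ^ (-M) := by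
  obtain ⟨C, hC, K⟩ := kernel_evo_all M c0
  refine ⟨C, hC, fun L η0 H hL hm hb hs x t => ?_⟩
  obtain ⟨hi, h2⟩ := int_of_bdd hm hb hs
  have k := K L η0 H hL hi hs x t 0
  have hmem : MemLp (fun y : E 2 => evo H y 0 0) 2 := (Lp.memLp _).ae_eq (evo_zero_ae_eq hi h2)
  have hsq : Integrable (fun y : E 2 => ‖(𝓕⁻ H : E 2 → ℂ) y‖ ^ 2) := by
    have := hmem.integrable_norm_pow (by norm_num)
    simpa [fourierInv_eq_evo] using this
  set Λ : ℝ := L * (1 + |t| / L ^ 2) with hΛd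
  have hΛ : 0 < Λ := by positivity
  have hw1 : ∀ y : E 2, (1 + ‖x - y - (2 * t) • η0‖ / Λ) ^ (-M) ≤ 1 := fun y =>
    Real.rpow_le_one_of_one_le_of_nonpos (by have : 0 ≤ ‖x - y - (2 * t) • η0‖ / Λ := by positivity
                                             linarith) (by linarith)
  have hw0 : ∀ y : E 2, 0 ≤ (1 + ‖x - y - (2 * t) • η0‖ / Λ) ^ (-M) := fun y => by positivity
  have hint : Integrable (fun y : E 2 => ‖(𝓕⁻ H : E 2 → ℂ) y‖ ^ 2 * (1 + ‖x - y - (2 * t) • η0‖ / Λ) ^ (-M)) := by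
    refine hsq.mono' ?_ ?_
    · refine hsq.aestronglyMeasurable.mul ?_
      refine Measurable.aestronglyMeasurable ?_
      fun_prop
    · filter_upwards with y
      rw [Real.norm_eq_abs, abs_of_nonneg (mul_nonneg (by positivity) (hw0 y))]
      exact mul_le_of_le_one_right (by positivity) (hw1 y)
  have e1 : ∫⁻ y : E 2, ‖evo H y 0 0‖ₑ ^ 2 * ENNReal.ofReal (wE M (Lam L (t - 0)) (x - y - (2 * (t - 0)) • η0))
      = ENNReal.ofReal (∫ y : E 2, ‖(𝓕⁻ H : E 2 → ℂ) y‖ ^ 2 * (1 + ‖x - y - (2 * t) • η0‖ / Λ) ^ (-M)) := by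
    rw [ofReal_integral_eq_lintegral_ofReal hint (by filter_upwards with y; exact mul_nonneg (by positivity) (hw0 y))]
    refine lintegral_congr fun y => ?_
    rw [ENNReal.ofReal_mul (by positivity), ENNReal.ofReal_pow (norm_nonneg _), ofReal_norm, fourierInv_eq_evo,
      sub_zero, wE]
    rfl
  rw [e1, sub_zero, ← ENNReal.ofReal_mul (by positivity), ← ofReal_norm, ← ENNReal.ofReal_pow (norm_nonneg _)] at k
  exact (ENNReal.ofReal_le_ofReal_iff (mul_nonneg (by positivity) (integral_nonneg fun y =>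
    mul_nonneg (by positivity) (hw0 y)))).1 k

end Vale.Agent.P076.H819
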