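import Vale.Agent.P076.H819.Osc

/-! # P076 / H819 : [ASM-K] kernel bound for pieces with Fourier support in an `A / L`-square -/

open MeasureTheory Complex Set
open scoped FourierTransform ENNReal

namespace Vale.Agent.P076.H819

abbrev F2 := Fin 2 → ℝ

/-- `u(x,t) = ∫ e^{i (x·ξ - t |ξ|²)} g(ξ) dξ` -/
noncomputable def Evo (g : F2 → ℂ) (x : F2) (t : ℝ) : ℂ :=
  ∫ ξ : F2, cexp (I * (∑ i, x i * ξ i) - I * t * (∑ i, ξ i ^ 2)) * g ξ

theorem osc_continuous {b : ℝ → ℂ} (hb : Continuous b) (hc : HasCompactSupport b) (s : ℝ) :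
    Continuous fun w => Osc b w s := by
  unfold Osc
  refine continuous_of_dominated (bound := fun ζ => ‖b ζ‖) ?_ ?_ (hb.norm.integrable_of_hasCompactSupport hc.norm) ?_
  · intro w; exact ((osc_continuous_exp w s).mul hb).aestronglyMeasurable
  · intro w; filter_upwards with ζ
    rw [norm_mul, norm_osc_exp, one_mul]
  · filter_upwards with ζ
    fun_prop

theorem integrable_wt : Integrable (fun w : ℝ => ((1 + |w|) ^ 2)⁻¹) := by
  have h := integrable_one_add_norm (E := ℝ) (μ := volume) (r := 2) (by simp)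
  refine h.congr ?_
  filter_upwards with w
  rw [Real.norm_eq_abs, Real.rpow_neg (by positivity)]
  norm_cast

theorem osc_integrable {b : ℝ → ℂ} (hb : ContDiff ℝ (⊤ : ℕ∞) b) (hc : HasCompactSupport b) (s : ℝ) :
    Integrable fun w => Osc b w s := by
  obtain ⟨C, hC, h⟩ := osc_decay' 2 (abs_nonneg s) hb hc
  refine (integrable_wt.const_mul C).mono' (osc_continuous hb.continuous hc s).aestronglyMeasurable ?_
  filter_upwards with w
  exact h w s le_rfl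

/-- Fourier inversion for `Osc` -/
theorem osc_inv {b : ℝ → ℂ} (hb : ContDiff ℝ (⊤ : ℕ∞) b) (hc : HasCompactSupport b) (s ξ : ℝ) :
    ∫ w : ℝ, cexp (-(I * (w * ξ))) * Osc b w s = 2 * Real.pi * (cexp (-(I * (s * ξ ^ 2))) * b ξ) := by
  have hpi : (0 : ℝ) < 2 * Real.pi := by positivity
  set φ : ℝ → ℂ := fun ζ => cexp (-(I * (s * ζ ^ 2))) * b ζ with hφ
  have hφc : Continuous φ := by
    rw [hφ]; exact (by fun_prop : Continuous fun ζ : ℝ => cexp (-(I * (s * ζ ^ 2)))).mul hb.continuous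
  have hφs : HasCompactSupport φ := hc.mul_left
  have hφi : Integrable φ := hφc.integrable_of_hasCompactSupport hφs
  have e1 : ∀ u : ℝ, 𝓕⁻ φ u = Osc b (2 * Real.pi * u) s := by
    intro u
    rw [Real.fourierInv_eq']
    unfold Osc
    congr 1; ext ζ
    rw [smul_eq_mul, hφ]
    simp only []
    rw [← mul_assoc, ← Complex.exp_add]
    congr 2
    have : inner ℝ ζ u = ζ * u := by simp [mul_comm]
    rw [this]
    push_cast; ring
  have hint : Integrable (𝓕⁻ φ) := by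
    have : (𝓕⁻ φ) = fun u => Osc b (2 * Real.pi * u) s := by ext u; exact e1 u
    rw [this]
    exact (osc_integrable hb hc s).comp_mul_left' hpi.ne'
  have hint' : Integrable (𝓕 φ) := by
    have h1 : (𝓕 φ) = fun w => 𝓕⁻ φ (-w) := by
      ext w
      rw [Real.fourierInv_eq_fourier_neg, neg_neg]
    rw [h1]; exact hint.comp_neg
  have hinv : 𝓕 (𝓕⁻ φ) = φ := hφc.fourier_fourierInv_eq hφi hint'
  have e2 : 𝓕 (𝓕⁻ φ) ξ = ∫ u : ℝ, (fun w : ℝ => cexp (-(I * (w * ξ))) * Osc b w s) (2 * Real.pi * u) := by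
    rw [Real.fourier_eq']
    congr 1; ext u
    rw [smul_eq_mul, e1]
    congr 2
    have : inner ℝ u ξ = u * ξ := by simp [mul_comm]
    rw [this]
    push_cast; ring
  rw [hinv, Measure.integral_comp_mul_left (fun w : ℝ => cexp (-(I * (w * ξ))) * Osc b w s) (2 * Real.pi)] at e2
  have e3 : φ ξ = cexp (-(I * (s * ξ ^ 2))) * b ξ := rfl
  rw [← e3, e2, abs_of_pos (inv_pos.2 hpi), Complex.real_smul, ← mul_assoc]
  have h7 : (2 * (Real.pi : ℂ)) * ((2 * Real.pi)⁻¹ : ℝ) = 1 := by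
    have : (Real.pi : ℂ) ≠ 0 := by exact_mod_cast Real.pi_ne_zero
    push_cast; field_simp
  rw [h7, one_mul]

/-- scaling of `Osc` -/
theorem osc_scale (a : ℝ → ℂ) {L : ℝ} (hL : 0 < L) (η w s : ℝ) :
    ‖Osc (fun ξ => a (L * (ξ - η))) w s‖ = L⁻¹ * ‖Osc a ((w - 2 * s * η) / L) (s / L ^ 2)‖ := by
  have e : Osc (fun ξ => a (L * (ξ - η))) w s =
      cexp (((w * η - s * η ^ 2 : ℝ) : ℂ) * I) * ((L⁻¹ : ℝ) * Osc a ((w - 2 * s * η) / L) (s / L ^ 2)) := by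
    unfold Osc
    set G : ℝ → ℂ := fun ζ => cexp (I * (((w - 2 * s * η) / L : ℝ) * ζ - (s / L ^ 2 : ℝ) * ζ ^ 2)) * a ζ with hG
    have e1 : (∫ ξ : ℝ, G (L * (ξ - η))) = ((L⁻¹ : ℝ) : ℂ) * ∫ ζ : ℝ, G ζ := by
      have h1 := integral_sub_right_eq_self (μ := volume) (fun ξ : ℝ => G (L * ξ)) η
      rw [h1, Measure.integral_comp_mul_left, abs_of_pos (inv_pos.2 hL), Complex.real_smul]
    rw [← e1, ← integral_const_mul]
    congr 1; ext ξ
    rw [hG]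
    simp only []
    rw [← mul_assoc, ← Complex.exp_add]
    congr 2
    have hL' : (L : ℂ) ≠ 0 := by exact_mod_cast hL.ne'
    push_cast
    field_simp
    ring
  rw [e, norm_mul, Complex.norm_exp_ofReal_mul_I, one_mul, norm_mul, Complex.norm_real, Real.norm_eq_abs,
    abs_of_pos (inv_pos.2 hL)]

/-- the kernel -/
noncomputable def Kr (a : ℝ → ℂ) (L : ℝ) (η : F2) (τ : ℝ) (z : F2) : ℂ :=
  ∏ i, ((2 * Real.pi)⁻¹ * Osc (fun ξ => a (L * (ξ - η i))) (z i) τ)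

theorem contDiff_aff {a : ℝ → ℂ} (ha : ContDiff ℝ (⊤ : ℕ∞) a) (L η : ℝ) :
    ContDiff ℝ (⊤ : ℕ∞) fun ξ => a (L * (ξ - η)) := ha.comp (by fun_prop)

theorem hcs_aff {a : ℝ → ℂ} (hc : HasCompactSupport a) {L : ℝ} (hL : L ≠ 0) (η : ℝ) :
    HasCompactSupport fun ξ => a (L * (ξ - η)) := by
  have : (fun ξ => a (L * (ξ - η))) = a ∘ ((Homeomorph.mulLeft₀ L hL).trans (Homeomorph.refl _) ∘ (Homeomorph.subRight η)) := by
    ext ξ; simp
  rw [this]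
  have h2 := hc.comp_homeomorph ((Homeomorph.subRight η).trans (Homeomorph.mulLeft₀ L hL))
  exact h2

theorem kr_continuous {a : ℝ → ℂ} (ha : ContDiff ℝ (⊤ : ℕ∞) a) (hc : HasCompactSupport a) {L : ℝ} (hL : 0 < L)
    (η : F2) (τ : ℝ) : Continuous (Kr a L η τ) := by
  unfold Kr
  refine continuous_finsetProd _ fun i _ => continuous_const.mul ?_
  exact (osc_continuous (contDiff_aff ha L (η i)).continuous (hcs_aff hc hL.ne' _) τ).comp (continuous_apply i)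

theorem kr_integrable {a : ℝ → ℂ} (ha : ContDiff ℝ (⊤ : ℕ∞) a) (hc : HasCompactSupport a) {L : ℝ} (hL : 0 < L)
    (η : F2) (τ : ℝ) : Integrable (Kr a L η τ) := by
  unfold Kr
  exact Integrable.fintype_prod (f := fun i z => ((2 * Real.pi)⁻¹ * Osc (fun ξ => a (L * (ξ - η i))) z τ))
    fun i => (osc_integrable (contDiff_aff ha L (η i)) (hcs_aff hc hL.ne' _) τ).const_mul _

/-- Fourier transform of the kernel -/
theorem kr_fourier {a : ℝ → ℂ} (ha : ContDiff ℝ (⊤ : ℕ∞) a) (hc : HasCompactSupport a) {L : ℝ} (hL : 0 < L)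
    (η : F2) (τ : ℝ) (ξ : F2) :
    ∫ z : F2, cexp (-(I * ∑ i, (z i : ℂ) * ξ i)) * Kr a L η τ z = ∏ i, (cexp (-(I * (τ * ξ i ^ 2))) * a (L * (ξ i - η i))) := by
  have e : ∀ z : F2, cexp (-(I * ∑ i, (z i : ℂ) * ξ i)) * Kr a L η τ z =
      ∏ i, (cexp (-(I * (z i * ξ i))) * ((2 * Real.pi)⁻¹ * Osc (fun ξ => a (L * (ξ - η i))) (z i) τ)) := by
    intro z
    unfold Kr
    have h1 : cexp (-(I * ∑ i, (z i : ℂ) * ξ i)) = ∏ i, cexp (-(I * (z i * ξ i))) := by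
      rw [← Complex.exp_sum, Finset.mul_sum, Finset.sum_neg_distrib]
    rw [h1, ← Finset.prod_mul_distrib]
  simp_rw [e]
  rw [integral_fintype_prod_volume_eq_prod (fun i (z : ℝ) => cexp (-(I * (z * ξ i))) *
    ((2 * Real.pi)⁻¹ * Osc (fun ξ => a (L * (ξ - η i))) z τ))]
  refine Finset.prod_congr rfl fun i _ => ?_
  have h := osc_inv (contDiff_aff ha L (η i)) (hcs_aff hc hL.ne' (η i)) τ (ξ i)
  have e2 : (∫ z : ℝ, cexp (-(I * (z * ξ i))) * ((2 * Real.pi)⁻¹ * Osc (fun ξ => a (L * (ξ - η i))) z τ)) =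
      (2 * Real.pi)⁻¹ * ∫ z : ℝ, cexp (-(I * (z * ξ i))) * Osc (fun ξ => a (L * (ξ - η i))) z τ := by
    rw [← integral_const_mul]; congr 1; ext z; ring
  rw [e2, h]
  have : (2 * (Real.pi : ℂ)) ≠ 0 := by
    exact_mod_cast (by positivity : (2 * Real.pi) ≠ 0)
  push_cast
  field_simp

theorem evo_norm_exp (x ξ : F2) (t : ℝ) : ‖cexp (I * (∑ i, x i * ξ i) - I * t * (∑ i, ξ i ^ 2))‖ = 1 := by
  have : I * ((∑ i, x i * ξ i : ℝ) : ℂ) - I * t * ((∑ i, ξ i ^ 2 : ℝ) : ℂ) =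
      (((∑ i, x i * ξ i) - t * (∑ i, ξ i ^ 2) : ℝ) : ℂ) * I := by push_cast; ring
  rw [this, Complex.norm_exp_ofReal_mul_I]

theorem evo_exp_continuous (t : ℝ) :
    Continuous fun p : F2 × F2 => cexp (I * ((∑ i, p.1 i * p.2 i : ℝ) : ℂ) - I * t * ((∑ i, p.2 i ^ 2 : ℝ) : ℂ)) := by
  fun_prop

theorem evo_continuous {g : F2 → ℂ} (hg : Integrable g) (t : ℝ) : Continuous fun x => Evo g x t := by
  unfold Evo
  refine continuous_of_dominated (bound := fun ζ => ‖g ζ‖) ?_ ?_ hg.norm ?_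
  · intro x
    exact (Continuous.aestronglyMeasurable (by fun_prop)).mul hg.aestronglyMeasurable
  · intro w; filter_upwards with ζ
    rw [norm_mul, evo_norm_exp, one_mul]
  · filter_upwards with ζ
    fun_prop

/-- **reproducing formula** -/
theorem evo_rep {a : ℝ → ℂ} (ha : ContDiff ℝ (⊤ : ℕ∞) a) (hc : HasCompactSupport a) {A L : ℝ} (hL : 0 < L)
    (ha1 : ∀ ζ, |ζ| ≤ A → a ζ = 1) {η : F2} {g : F2 → ℂ} (hg : Integrable g)
    (hs : ∀ ξ, g ξ ≠ 0 → ∀ i, |ξ i - η i| ≤ A / L) (x : F2) (t t0 : ℝ) :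
    Evo g x t = ∫ y : F2, Evo g y t0 * Kr a L η (t - t0) (x - y) := by
  have hK := kr_integrable ha hc hL η (t - t0)
  have hKx : Integrable (fun y : F2 => Kr a L η (t - t0) (x - y)) := hK.comp_sub_left x
  -- Fubini
  have hF : Integrable (Function.uncurry fun (y ξ : F2) =>
      cexp (I * (∑ i, y i * ξ i) - I * t0 * (∑ i, ξ i ^ 2)) * g ξ * Kr a L η (t - t0) (x - y)) (volume.prod volume) := by
    have h1 : Integrable (fun p : F2 × F2 => Kr a L η (t - t0) (x - p.1) * g p.2) (volume.prod volume) := hKx.mul_prod hg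
    refine h1.mono ?_ ?_
    · have h2 : AEStronglyMeasurable (fun p : F2 × F2 => cexp (I * ((∑ i, p.1 i * p.2 i : ℝ) : ℂ) - I * t0 * ((∑ i, p.2 i ^ 2 : ℝ) : ℂ)))
        (volume.prod volume) := (evo_exp_continuous t0).aestronglyMeasurable
      refine (h2.mul h1.aestronglyMeasurable).congr ?_
      filter_upwards with p
      simp only [Function.uncurry, Pi.mul_apply]
      push_cast
      ring
    · filter_upwards with p
      simp only [Function.uncurry]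
      rw [norm_mul, norm_mul, evo_norm_exp, one_mul, norm_mul, mul_comm]
  have e1 : (∫ y : F2, Evo g y t0 * Kr a L η (t - t0) (x - y)) =
      ∫ y : F2, ∫ ξ : F2, cexp (I * (∑ i, y i * ξ i) - I * t0 * (∑ i, ξ i ^ 2)) * g ξ * Kr a L η (t - t0) (x - y) := by
    congr 1; ext y
    unfold Evo
    rw [integral_mul_const]
  rw [e1, integral_integral_swap hF]
  unfold Evo
  congr 1; ext ξ
  by_cases h0 : g ξ = 0
  · simp [h0]
  have e2 : (∫ y : F2, cexp (I * (∑ i, y i * ξ i) - I * t0 * (∑ i, ξ i ^ 2)) * g ξ * Kr a L η (t - t0) (x - y)) =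
      ∫ z : F2, cexp (I * (∑ i, (x i - z i) * ξ i) - I * t0 * (∑ i, ξ i ^ 2)) * g ξ * Kr a L η (t - t0) z := by
    rw [← integral_sub_left_eq_self _ _ x]
    congr 1; ext z
    simp
  rw [e2]
  have e3 : ∀ z : F2, cexp (I * (∑ i, (x i - z i) * ξ i : ℝ) - I * t0 * (∑ i, ξ i ^ 2 : ℝ)) * g ξ * Kr a L η (t - t0) z =
      (cexp (I * (∑ i, x i * ξ i : ℝ) - I * t0 * (∑ i, ξ i ^ 2 : ℝ)) * g ξ) *
        (cexp (-(I * ∑ i, (z i : ℂ) * ξ i)) * Kr a L η (t - t0) z) := by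
    intro z
    have : I * ((∑ i, (x i - z i) * ξ i : ℝ) : ℂ) - I * t0 * ((∑ i, ξ i ^ 2 : ℝ) : ℂ) =
        (I * ((∑ i, x i * ξ i : ℝ) : ℂ) - I * t0 * ((∑ i, ξ i ^ 2 : ℝ) : ℂ)) + -(I * ∑ i, (z i : ℂ) * ξ i) := by
      push_cast
      simp_rw [sub_mul, Finset.sum_sub_distrib]; ring
    rw [this, Complex.exp_add]; ring
  simp_rw [e3]
  rw [integral_const_mul, kr_fourier ha hc hL]
  have e4 : (∏ i, (cexp (-(I * ((t - t0 : ℝ) * ξ i ^ 2))) * a (L * (ξ i - η i)))) =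
      cexp (-(I * (t - t0 : ℝ) * ∑ i, (ξ i : ℂ) ^ 2)) := by
    rw [Finset.prod_mul_distrib, ← Complex.exp_sum]
    have : ∏ i, a (L * (ξ i - η i)) = 1 := by
      refine Finset.prod_eq_one fun i _ => ha1 _ ?_
      have := hs ξ h0 i
      rw [abs_mul, abs_of_pos hL]
      calc L * |ξ i - η i| ≤ L * (A / L) := by gcongr
        _ = A := by field_simp
    rw [this, mul_one, Finset.sum_neg_distrib, Finset.mul_sum]
    congr 2
    refine Finset.sum_congr rfl fun i _ => ?_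
    ring
  rw [e4]
  have : cexp (I * ((∑ i, x i * ξ i : ℝ) : ℂ) - I * t * ((∑ i, ξ i ^ 2 : ℝ) : ℂ)) =
      cexp (I * ((∑ i, x i * ξ i : ℝ) : ℂ) - I * t0 * ((∑ i, ξ i ^ 2 : ℝ) : ℂ)) * cexp (-(I * (t - t0 : ℝ) * ∑ i, (ξ i : ℂ) ^ 2)) := by
    rw [← Complex.exp_add]; congr 1; push_cast; ring
  rw [this]; ring

/-- the bump -/
noncomputable def bmp (A : ℝ) : ℝ → ℂ := fun ζ =>
  ((⟨max A 1, max A 1 + 1, by positivity, by linarith⟩ : ContDiffBump (0 : ℝ)) ζ : ℂ)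

theorem bmp_contDiff (A : ℝ) : ContDiff ℝ (⊤ : ℕ∞) (bmp A) :=
  Complex.ofRealCLM.contDiff.comp (ContDiffBump.contDiff _)

theorem bmp_cs (A : ℝ) : HasCompactSupport (bmp A) :=
  (ContDiffBump.hasCompactSupport _).comp_left (g := ((↑) : ℝ → ℂ)) Complex.ofReal_zero

theorem bmp_one {A ζ : ℝ} (h : |ζ| ≤ A) : bmp A ζ = 1 := by
  unfold bmp
  rw [ContDiffBump.one_of_mem_closedBall]
  · simp
  · rw [mem_closedBall_zero_iff, Real.norm_eq_abs]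
    exact h.trans (le_max_left _ _)

/-- the weight of a square of side `L` -/
noncomputable def wq (M : ℕ) (L : ℝ) (v : F2) : ℝ := ((1 + (|v 0| + |v 1|) / L) ^ M)⁻¹

theorem wq_pos {M : ℕ} {L : ℝ} (hL : 0 < L) (v : F2) : 0 < wq M L v := by unfold wq; positivity

theorem wq_continuous (M : ℕ) {L : ℝ} (hL : 0 < L) : Continuous (wq M L) := by
  unfold wq
  refine Continuous.inv₀ (by fun_prop) fun v => ?_
  positivity

/-- pointwise bound of the kernel -/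
theorem kr_le (M : ℕ) (A S : ℝ) (hS : 0 ≤ S) : ∃ C : ℝ, 0 ≤ C ∧ ∀ (L : ℝ) (η : F2) (τ : ℝ) (z : F2), 0 < L → |τ| ≤ S * L ^ 2 →
    ‖Kr (bmp A) L η τ z‖ ≤ C * ∏ i, (L⁻¹ * ((1 + |z i - 2 * τ * η i| / L) ^ M)⁻¹) := by
  obtain ⟨C, hC, h⟩ := osc_decay' M hS (bmp_contDiff A) (bmp_cs A)
  refine ⟨((2 * Real.pi)⁻¹ * C) ^ 2, by positivity, fun L η τ z hL hτ => ?_⟩
  have h1 : ∀ i : Fin 2, ‖((((2 * Real.pi)⁻¹ : ℝ) : ℂ) * Osc (fun ξ => bmp A (L * (ξ - η i))) (z i) τ)‖ ≤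
      ((2 * Real.pi)⁻¹ * C) * (L⁻¹ * ((1 + |z i - 2 * τ * η i| / L) ^ M)⁻¹) := by
    intro i
    rw [norm_mul, osc_scale _ hL, Complex.norm_real, Real.norm_eq_abs, abs_of_pos (by positivity)]
    have := h ((z i - 2 * τ * η i) / L) (τ / L ^ 2) (by
      rw [abs_div, abs_of_pos (by positivity : (0:ℝ) < L ^ 2), div_le_iff₀ (by positivity)]; exact hτ)
    rw [abs_div, abs_of_pos hL] at this
    calc (2 * Real.pi)⁻¹ * (L⁻¹ * ‖Osc (bmp A) ((z i - 2 * τ * η i) / L) (τ / L ^ 2)‖)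
        ≤ (2 * Real.pi)⁻¹ * (L⁻¹ * (C * ((1 + |z i - 2 * τ * η i| / L) ^ M)⁻¹)) := by gcongr
      _ = _ := by ring
  unfold Kr
  rw [norm_prod]
  calc ∏ i, ‖((((2 * Real.pi)⁻¹ : ℝ) : ℂ) * Osc (fun ξ => bmp A (L * (ξ - η i))) (z i) τ)‖
      ≤ ∏ i, (((2 * Real.pi)⁻¹ * C) * (L⁻¹ * ((1 + |z i - 2 * τ * η i| / L) ^ M)⁻¹)) :=
        Finset.prod_le_prod (fun _ _ => norm_nonneg _) fun i _ => h1 i
    _ = _ := by rw [Finset.prod_mul_distrib, Finset.prod_const]; simp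

theorem integrable_wt' : Integrable (fun w : ℝ => ((1 + |w|) ^ 2)⁻¹) := integrable_wt

/-- `∏ (1 + |v i| / L)^(-M-2)` against the weight `wq` -/
theorem prod_le_wq (M : ℕ) {L : ℝ} (hL : 0 < L) (v : F2) :
    ∏ i, (L⁻¹ * ((1 + |v i| / L) ^ (M + 2))⁻¹) ≤ (L ^ 2)⁻¹ * (wq M L v * ∏ i, ((1 + |v i| / L) ^ 2)⁻¹) := by
  unfold wq
  simp only [Fin.prod_univ_two]
  have k0 : 0 ≤ |v 0| / L := by positivity
  have k1 : 0 ≤ |v 1| / L := by positivity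
  have k2 : ((1 + |v 0| / L) ^ M)⁻¹ * ((1 + |v 1| / L) ^ M)⁻¹ ≤ ((1 + (|v 0| + |v 1|) / L) ^ M)⁻¹ := by
    rw [← mul_inv, ← mul_pow]
    apply inv_anti₀ (by positivity)
    gcongr
    rw [add_div]; nlinarith
  calc L⁻¹ * ((1 + |v 0| / L) ^ (M + 2))⁻¹ * (L⁻¹ * ((1 + |v 1| / L) ^ (M + 2))⁻¹)
      = (L ^ 2)⁻¹ * ((((1 + |v 0| / L) ^ M)⁻¹ * ((1 + |v 1| / L) ^ M)⁻¹) * (((1 + |v 0| / L) ^ 2)⁻¹ * ((1 + |v 1| / L) ^ 2)⁻¹)) := by
        rw [pow_add, pow_add, mul_inv, mul_inv, sq L, mul_inv]; ring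
    _ ≤ _ := by gcongr

theorem lint_prod {L : ℝ} (hL : 0 < L) (c : F2) :
    ∫⁻ z : F2, ENNReal.ofReal (∏ i, (L⁻¹ * ((1 + |z i - c i| / L) ^ 2)⁻¹)) = ENNReal.ofReal ((∫ w : ℝ, ((1 + |w|) ^ 2)⁻¹) ^ 2) := by
  have hI : ∀ i : Fin 2, Integrable (fun z : ℝ => L⁻¹ * ((1 + |z - c i| / L) ^ 2)⁻¹) := by
    intro i
    have h1 : Integrable (fun z : ℝ => ((1 + |(L⁻¹ * z)|) ^ 2)⁻¹) := integrable_wt.comp_mul_left' (inv_ne_zero hL.ne')
    have h2 := (h1.comp_sub_right (c i)).const_mul L⁻¹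
    refine h2.congr ?_
    filter_upwards with z
    rw [abs_mul, abs_of_pos (inv_pos.2 hL), div_eq_inv_mul]
  have hII : Integrable (fun z : F2 => ∏ i, (L⁻¹ * ((1 + |z i - c i| / L) ^ 2)⁻¹)) :=
    Integrable.fintype_prod (f := fun i z => L⁻¹ * ((1 + |z - c i| / L) ^ 2)⁻¹) hI
  rw [← ofReal_integral_eq_lintegral_ofReal hII (by filter_upwards with z; positivity)]
  congr 1
  rw [integral_fintype_prod_volume_eq_prod (fun i (z : ℝ) => L⁻¹ * ((1 + |z - c i| / L) ^ 2)⁻¹)]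
  have e : ∀ i : Fin 2, (∫ z : ℝ, L⁻¹ * ((1 + |z - c i| / L) ^ 2)⁻¹) = ∫ w : ℝ, ((1 + |w|) ^ 2)⁻¹ := by
    intro i
    have h1 := integral_sub_right_eq_self (μ := volume) (fun z : ℝ => ((1 + |L⁻¹ * z|) ^ 2)⁻¹) (c i)
    have h2 := Measure.integral_comp_mul_left (fun w : ℝ => ((1 + |w|) ^ 2)⁻¹) L⁻¹
    rw [inv_inv, abs_of_pos hL, smul_eq_mul] at h2
    rw [integral_const_mul]
    have h3 : (∫ z : ℝ, ((1 + |z - c i| / L) ^ 2)⁻¹) = ∫ z : ℝ, ((1 + |L⁻¹ * (z - c i)|) ^ 2)⁻¹ := by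
      congr 1; ext z
      rw [abs_mul, abs_of_pos (inv_pos.2 hL), div_eq_inv_mul]
    rw [h3, h1, h2, ← mul_assoc, inv_mul_cancel₀ hL.ne', one_mul]
  simp_rw [e]
  simp [sq]

/-- Cauchy-Schwarz with a kernel -/
theorem cs_kernel {f k : F2 → ℝ≥0∞} (hf : Measurable f) (hk : Measurable k) :
    (∫⁻ y, f y * k y) ^ 2 ≤ (∫⁻ y, f y ^ 2 * k y) * ∫⁻ y, k y := by
  have hm : Measurable (fun y => k y ^ (1/2 : ℝ)) := by fun_prop
  have h := ENNReal.lintegral_mul_le_Lp_mul_Lq (μ := (volume : Measure F2)) (p := 2) (q := 2) (by constructor <;> norm_num)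
    (f := fun y => f y * k y ^ (1/2 : ℝ)) (g := fun y => k y ^ (1/2 : ℝ)) (hf.mul hm).aemeasurable hm.aemeasurable
  have e1 : ∀ y, ((fun y => f y * k y ^ (1/2 : ℝ)) * fun y => k y ^ (1/2 : ℝ)) y = f y * k y := by
    intro y
    simp only [Pi.mul_apply]
    rw [mul_assoc, ← ENNReal.rpow_add_of_nonneg _ _ (by norm_num) (by norm_num)]
    norm_num
  simp_rw [e1] at h
  have e2 : ∀ y, (f y * k y ^ (1/2 : ℝ)) ^ (2:ℝ) = f y ^ 2 * k y := by
    intro y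
    rw [ENNReal.mul_rpow_of_nonneg _ _ (by norm_num), ← ENNReal.rpow_mul]
    norm_num
  have e3 : ∀ y, (k y ^ (1/2 : ℝ)) ^ (2:ℝ) = k y := by
    intro y
    rw [← ENNReal.rpow_mul]
    norm_num
  simp_rw [e2, e3] at h
  calc (∫⁻ y, f y * k y) ^ 2 ≤ ((∫⁻ y, f y ^ 2 * k y) ^ (1 / 2 : ℝ) * (∫⁻ y, k y) ^ (1 / 2 : ℝ)) ^ 2 := by gcongr
    _ = _ := by
      rw [mul_pow, ← ENNReal.rpow_natCast, ← ENNReal.rpow_mul, ← ENNReal.rpow_natCast, ← ENNReal.rpow_mul]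
      norm_num

/-- the majorant of the kernel -/
noncomputable def km (M : ℕ) (L : ℝ) (v : F2) : ℝ := ∏ i, (L⁻¹ * ((1 + |v i| / L) ^ (M + 2))⁻¹)

theorem km_nonneg (M : ℕ) {L : ℝ} (hL : 0 < L) (v : F2) : 0 ≤ km M L v := by unfold km; positivity

theorem km_measurable (M : ℕ) (L : ℝ) : Measurable (km M L) := by
  unfold km
  refine Finset.measurable_prod _ fun i _ => ?_
  fun_prop

theorem km_le_wq (M : ℕ) {L : ℝ} (hL : 0 < L) (v : F2) : km M L v ≤ (L ^ 2)⁻¹ * wq M L v := by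
  have h2 : ∏ i : Fin 2, ((1 + |v i| / L) ^ 2)⁻¹ ≤ 1 := by
    refine Finset.prod_le_one (fun _ _ => by positivity) fun i _ => ?_
    apply inv_le_one_of_one_le₀
    have : 0 ≤ |v i| / L := by positivity
    nlinarith
  have hw := (wq_pos (M := M) hL v).le
  calc km M L v ≤ (L ^ 2)⁻¹ * (wq M L v * 1) := by
        refine (prod_le_wq M hL v).trans ?_
        gcongr
    _ = _ := by ring

theorem lint_km (M : ℕ) {L : ℝ} (hL : 0 < L) (x c : F2) :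
    ∫⁻ y : F2, ENNReal.ofReal (km M L (fun i => x i - y i - c i)) ≤ ENNReal.ofReal ((∫ w : ℝ, ((1 + |w|) ^ 2)⁻¹) ^ 2) := by
  rw [← lint_prod hL (fun i => x i - c i)]
  refine lintegral_mono fun y => ENNReal.ofReal_le_ofReal ?_
  unfold km
  refine Finset.prod_le_prod (fun _ _ => by positivity) fun i _ => ?_
  have e5 : |x i - y i - c i| = |y i - (x i - c i)| := by
    rw [← abs_neg]; congr 1; ring
  rw [e5]
  have h0 : 0 ≤ |y i - (x i - c i)| / L := by positivity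
  refine mul_le_mul_of_nonneg_left ?_ (by positivity)
  apply inv_anti₀ (by positivity)
  exact pow_le_pow_right₀ (by linarith) (by omega)

theorem meas_km_shift (M : ℕ) (L : ℝ) (x c : F2) : Measurable fun y : F2 => km M L (fun i => x i - y i - c i) :=
  (km_measurable M L).comp (by fun_prop)

/-- **[ASM-K]** `|u(x,t)|² ≤ C L⁻² ∫ |u(y,t0)|² (1 + |x - y - 2 (t - t0) η| / L)^(-M) dy` -/
theorem kernel_bound (M : ℕ) (A S : ℝ) (hS : 0 ≤ S) : ∃ C : ℝ, 0 ≤ C ∧ ∀ (L : ℝ) (η : F2) (g : F2 → ℂ), 0 < L →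
    Integrable g → (∀ ξ, g ξ ≠ 0 → ∀ i, |ξ i - η i| ≤ A / L) → ∀ (x : F2) (t t0 : ℝ), |t - t0| ≤ S * L ^ 2 →
      ‖Evo g x t‖ₑ ^ 2 ≤ ENNReal.ofReal (C * (L ^ 2)⁻¹) *
        ∫⁻ y, ‖Evo g y t0‖ₑ ^ 2 * ENNReal.ofReal (wq M L (fun i => x i - y i - 2 * (t - t0) * η i)) := by
  obtain ⟨C1, hC1, h1⟩ := kr_le (M + 2) A S hS
  refine ⟨C1 ^ 2 * (∫ w : ℝ, ((1 + |w|) ^ 2)⁻¹) ^ 2, by positivity, fun L η g hL hg hs x t t0 ht => ?_⟩
  have hrep := evo_rep (bmp_contDiff A) (bmp_cs A) hL (fun ζ h => bmp_one h) hg hs x t t0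
  set k : F2 → ℝ≥0∞ := fun y => ENNReal.ofReal (km M L (fun i => x i - y i - 2 * (t - t0) * η i)) with hk
  have hkm : Measurable k := (meas_km_shift M L x fun i => 2 * (t - t0) * η i).ennreal_ofReal
  have hum : Measurable (fun y => ‖Evo g y t0‖ₑ) := (evo_continuous hg t0).enorm.measurable
  have hA : ‖Evo g x t‖ₑ ≤ ENNReal.ofReal C1 * ∫⁻ y, ‖Evo g y t0‖ₑ * k y := by
    rw [hrep, ← lintegral_const_mul' _ _ ENNReal.ofReal_ne_top]
    refine (enorm_integral_le_lintegral_enorm _).trans (lintegral_mono fun y => ?_)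
    rw [enorm_mul, mul_comm (ENNReal.ofReal C1), mul_assoc]
    refine mul_le_mul_right ?_ _
    rw [hk, ← ofReal_norm, mul_comm, ← ENNReal.ofReal_mul hC1]
    exact ENNReal.ofReal_le_ofReal (h1 L η (t - t0) (x - y) hL ht)
  have hk3 : ∫⁻ y, k y ≤ ENNReal.ofReal ((∫ w : ℝ, ((1 + |w|) ^ 2)⁻¹) ^ 2) := lint_km M hL x _
  have hk2 : ∫⁻ y, ‖Evo g y t0‖ₑ ^ 2 * k y ≤ ENNReal.ofReal ((L ^ 2)⁻¹) *
      ∫⁻ y, ‖Evo g y t0‖ₑ ^ 2 * ENNReal.ofReal (wq M L (fun i => x i - y i - 2 * (t - t0) * η i)) := by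
    rw [← lintegral_const_mul' _ _ ENNReal.ofReal_ne_top]
    refine lintegral_mono fun y => ?_
    rw [mul_left_comm, ← ENNReal.ofReal_mul (by positivity)]
    exact mul_le_mul_right (ENNReal.ofReal_le_ofReal (km_le_wq M hL _)) _
  calc ‖Evo g x t‖ₑ ^ 2 ≤ (ENNReal.ofReal C1 * ∫⁻ y, ‖Evo g y t0‖ₑ * k y) ^ 2 := pow_le_pow_left' hA 2
    _ = ENNReal.ofReal C1 ^ 2 * (∫⁻ y, ‖Evo g y t0‖ₑ * k y) ^ 2 := mul_pow _ _ _
    _ ≤ ENNReal.ofReal C1 ^ 2 * ((∫⁻ y, ‖Evo g y t0‖ₑ ^ 2 * k y) * ∫⁻ y, k y) := mul_le_mul_right (cs_kernel hum hkm) _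
    _ ≤ ENNReal.ofReal C1 ^ 2 * ((ENNReal.ofReal ((L ^ 2)⁻¹) *
      ∫⁻ y, ‖Evo g y t0‖ₑ ^ 2 * ENNReal.ofReal (wq M L (fun i => x i - y i - 2 * (t - t0) * η i))) *
        ENNReal.ofReal ((∫ w : ℝ, ((1 + |w|) ^ 2)⁻¹) ^ 2)) := mul_le_mul_right (mul_le_mul' hk2 hk3) _
    _ = (ENNReal.ofReal C1 ^ 2 * ENNReal.ofReal ((∫ w : ℝ, ((1 + |w|) ^ 2)⁻¹) ^ 2) * ENNReal.ofReal ((L ^ 2)⁻¹)) *
      ∫⁻ y, ‖Evo g y t0‖ₑ ^ 2 * ENNReal.ofReal (wq M L (fun i => x i - y i - 2 * (t - t0) * η i)) := by ring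
    _ = _ := by
      rw [← ENNReal.ofReal_pow hC1, ← ENNReal.ofReal_mul (by positivity), ← ENNReal.ofReal_mul (by positivity)]

end Vale.Agent.P076.H819
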