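import Mathlib

/-! # P076 / H819 : one-dimensional kernels `∫ e^{i (w ζ - s ζ²)} a ζ dζ` -/

open MeasureTheory Complex Set
open scoped FourierTransform

namespace Vale.Agent.P076.H819

/-- the one-dimensional oscillatory integral -/
noncomputable def Osc (a : ℝ → ℂ) (w s : ℝ) : ℂ := ∫ ζ : ℝ, cexp (I * (w * ζ - s * ζ ^ 2)) * a ζ

theorem norm_osc_exp (w s ζ : ℝ) : ‖cexp (I * (w * ζ - s * ζ ^ 2))‖ = 1 := by
  have : I * ((w:ℂ) * ζ - s * ζ ^ 2) = ((w * ζ - s * ζ ^ 2 : ℝ) : ℂ) * I := by push_cast; ring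
  rw [this, Complex.norm_exp_ofReal_mul_I]

theorem osc_continuous_exp (w s : ℝ) : Continuous fun ζ : ℝ => cexp (I * (w * ζ - s * ζ ^ 2)) := by
  fun_prop

theorem osc_norm_le (a : ℝ → ℂ) (w s : ℝ) : ‖Osc a w s‖ ≤ ∫ ζ : ℝ, ‖a ζ‖ := by
  unfold Osc
  refine (norm_integral_le_integral_norm _).trans (le_of_eq ?_)
  congr 1; ext ζ
  rw [norm_mul, norm_osc_exp, one_mul]

theorem osc_step {a : ℝ → ℂ} (ha : ContDiff ℝ (⊤ : ℕ∞) a) (hc : HasCompactSupport a) (w s : ℝ) :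
    (w : ℂ) * Osc a w s = 2 * s * Osc (fun ζ => (ζ : ℂ) * a ζ) w s + I * Osc (deriv a) w s := by
  have hd : Differentiable ℝ a := ha.differentiable (by simp)
  have hcd : HasCompactSupport (deriv a) := hc.deriv
  have hca : Continuous a := ha.continuous
  have hcda : Continuous (deriv a) := ha.continuous_deriv (by simp)
  -- derivative of the product
  have hder : ∀ ζ : ℝ, HasDerivAt (fun ζ : ℝ => cexp (I * (w * ζ - s * ζ ^ 2)) * a ζ)
      (I * w * (cexp (I * (w * ζ - s * ζ ^ 2)) * a ζ) - 2 * I * s * (cexp (I * (w * ζ - s * ζ ^ 2)) * ((ζ : ℂ) * a ζ))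
        + cexp (I * (w * ζ - s * ζ ^ 2)) * deriv a ζ) ζ := by
    intro ζ
    have h1 : HasDerivAt (fun ζ : ℝ => (ζ : ℂ)) 1 ζ := Complex.ofRealCLM.hasDerivAt
    have h2 : HasDerivAt (fun ζ : ℝ => I * ((w : ℂ) * ζ - s * (ζ : ℂ) ^ 2)) (I * ((w : ℂ) - s * (2 * ζ))) ζ := by
      have h5 : HasDerivAt (fun ζ : ℝ => (ζ : ℂ) ^ 2) (2 * ζ) ζ := by
        have := h1.mul h1
        have e : ((fun ζ : ℝ => (ζ : ℂ)) * fun ζ : ℝ => (ζ : ℂ)) = fun ζ : ℝ => (ζ : ℂ) ^ 2 := by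
          ext z; simp [sq]
        rw [e] at this
        exact this.congr_deriv (by ring)
      have := ((h1.const_mul (w : ℂ)).sub (h5.const_mul (s : ℂ))).const_mul I
      rw [mul_one] at this
      exact this
    have h3 := h2.cexp.mul (hd ζ).hasDerivAt
    refine h3.congr_deriv ?_
    ring
  have i1 : Integrable (fun ζ : ℝ => cexp (I * (w * ζ - s * ζ ^ 2)) * a ζ) :=
    ((osc_continuous_exp w s).mul hca).integrable_of_hasCompactSupport hc.mul_left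
  have i2 : Integrable (fun ζ : ℝ => cexp (I * (w * ζ - s * ζ ^ 2)) * ((ζ : ℂ) * a ζ)) :=
    ((osc_continuous_exp w s).mul ((Complex.continuous_ofReal).mul hca)).integrable_of_hasCompactSupport
      (HasCompactSupport.mul_left (HasCompactSupport.mul_left hc))
  have i3 : Integrable (fun ζ : ℝ => cexp (I * (w * ζ - s * ζ ^ 2)) * deriv a ζ) :=
    ((osc_continuous_exp w s).mul hcda).integrable_of_hasCompactSupport hcd.mul_left
  have i4 : Integrable (fun ζ : ℝ => I * w * (cexp (I * (w * ζ - s * ζ ^ 2)) * a ζ) - 2 * I * s * (cexp (I * (w * ζ - s * ζ ^ 2)) * ((ζ : ℂ) * a ζ))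
        + cexp (I * (w * ζ - s * ζ ^ 2)) * deriv a ζ) := ((i1.const_mul _).sub (i2.const_mul _)).add i3
  have h0 := integral_eq_zero_of_hasDerivAt_of_integrable hder i4 i1
  have e0 : (∫ ζ : ℝ, (I * w * (cexp (I * (w * ζ - s * ζ ^ 2)) * a ζ) - 2 * I * s * (cexp (I * (w * ζ - s * ζ ^ 2)) * ((ζ : ℂ) * a ζ))
        + cexp (I * (w * ζ - s * ζ ^ 2)) * deriv a ζ)) = I * w * Osc a w s - 2 * I * s * Osc (fun ζ => (ζ : ℂ) * a ζ) w s + Osc (deriv a) w s := by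
    have i12 : Integrable (fun ζ : ℝ => I * w * (cexp (I * (w * ζ - s * ζ ^ 2)) * a ζ) -
        2 * I * s * (cexp (I * (w * ζ - s * ζ ^ 2)) * ((ζ : ℂ) * a ζ))) := (i1.const_mul _).sub (i2.const_mul _)
    rw [integral_add i12 i3, integral_sub (i1.const_mul _) (i2.const_mul _), integral_const_mul, integral_const_mul]
    rfl
  rw [e0] at h0
  have hI : I * I = -1 := Complex.I_mul_I
  linear_combination (-I) * h0 + ((w:ℂ) * Osc a w s - 2 * s * Osc (fun ζ => (ζ : ℂ) * a ζ) w s) * hI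

/-- uniform decay for `|s| ≤ S` -/
theorem osc_decay (N : ℕ) : ∀ (S : ℝ) (a : ℝ → ℂ), 0 ≤ S → ContDiff ℝ (⊤ : ℕ∞) a → HasCompactSupport a →
    ∃ C : ℝ, 0 ≤ C ∧ ∀ w s : ℝ, |s| ≤ S → |w| ^ N * ‖Osc a w s‖ ≤ C := by
  induction N with
  | zero =>
    intro S a _ _ _
    refine ⟨∫ ζ : ℝ, ‖a ζ‖, integral_nonneg fun _ => norm_nonneg _, fun w s _ => ?_⟩
    rw [pow_zero, one_mul]; exact osc_norm_le a w s
  | succ N ih =>
    intro S a hS ha hc
    have h1 : ContDiff ℝ (⊤ : ℕ∞) (fun ζ : ℝ => (ζ : ℂ) * a ζ) := (Complex.ofRealCLM.contDiff).mul ha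
    have h2 : ContDiff ℝ (⊤ : ℕ∞) (deriv a) := by
      have := (contDiff_infty_iff_deriv.1 (by exact_mod_cast ha)).2
      exact_mod_cast this
    obtain ⟨C1, hC1, k1⟩ := ih S _ hS h1 (HasCompactSupport.mul_left hc)
    obtain ⟨C2, hC2, k2⟩ := ih S _ hS h2 hc.deriv
    refine ⟨2 * S * C1 + C2, by positivity, fun w s hs => ?_⟩
    have e := osc_step ha hc w s
    have e2 : |w| * ‖Osc a w s‖ ≤ 2 * |s| * ‖Osc (fun ζ => (ζ : ℂ) * a ζ) w s‖ + ‖Osc (deriv a) w s‖ := by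
      have := congrArg norm e
      rw [norm_mul, Complex.norm_real, Real.norm_eq_abs] at this
      rw [this]
      refine (norm_add_le _ _).trans (le_of_eq ?_)
      rw [norm_mul, norm_mul, norm_mul, Complex.norm_I, one_mul, Complex.norm_real, Real.norm_eq_abs]
      simp
    have a1 := k1 w s hs
    have a2 := k2 w s hs
    calc |w| ^ (N + 1) * ‖Osc a w s‖ = |w| ^ N * (|w| * ‖Osc a w s‖) := by ring
      _ ≤ |w| ^ N * (2 * |s| * ‖Osc (fun ζ => (ζ : ℂ) * a ζ) w s‖ + ‖Osc (deriv a) w s‖) := by gcongr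
      _ = 2 * |s| * (|w| ^ N * ‖Osc (fun ζ => (ζ : ℂ) * a ζ) w s‖) + |w| ^ N * ‖Osc (deriv a) w s‖ := by ring
      _ ≤ 2 * S * C1 + C2 := by gcongr

theorem osc_decay' (N : ℕ) {S : ℝ} {a : ℝ → ℂ} (hS : 0 ≤ S) (ha : ContDiff ℝ (⊤ : ℕ∞) a) (hc : HasCompactSupport a) :
    ∃ C : ℝ, 0 ≤ C ∧ ∀ w s : ℝ, |s| ≤ S → ‖Osc a w s‖ ≤ C * ((1 + |w|) ^ N)⁻¹ := by
  obtain ⟨C0, hC0, k0⟩ := osc_decay 0 S a hS ha hc
  obtain ⟨C1, hC1, k1⟩ := osc_decay N S a hS ha hc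
  refine ⟨2 ^ N * (C0 + C1), by positivity, fun w s hs => ?_⟩
  have b0 := k0 w s hs
  have b1 := k1 w s hs
  rw [pow_zero, one_mul] at b0
  rw [← div_eq_mul_inv, le_div_iff₀ (by positivity)]
  rcases le_total |w| 1 with h | h
  · calc ‖Osc a w s‖ * (1 + |w|) ^ N ≤ C0 * (1 + 1) ^ N := by gcongr
      _ ≤ _ := by
        have : (1 + 1 : ℝ) ^ N = 2 ^ N := by norm_num
        rw [this]
        have : (0:ℝ) ≤ 2 ^ N * C1 := by positivity
        linarith [mul_comm C0 ((2:ℝ) ^ N), mul_add ((2:ℝ)^N) C0 C1]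
  · calc ‖Osc a w s‖ * (1 + |w|) ^ N ≤ ‖Osc a w s‖ * (|w| + |w|) ^ N := by gcongr
      _ = 2 ^ N * (|w| ^ N * ‖Osc a w s‖) := by rw [← two_mul, mul_pow]; ring
      _ ≤ 2 ^ N * C1 := by gcongr
      _ ≤ _ := by
        have : (0:ℝ) ≤ 2 ^ N * C0 := by positivity
        linarith [mul_add ((2:ℝ)^N) C0 C1]

end Vale.Agent.P076.H819
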